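import Vale.Agent.Lib.P012F.Coll
import Vale.Agent.Lib.P012.Pool

namespace Vale.Agent.Lib.P012F

open Finset

/-- The pool of primes. -/
def pl (κ : ℕ) : Finset ℕ := (Finset.range (2 ^ (16 * κ))).filter (fun p => p.Prime ∧ 2 ^ (8 * κ) ≤ p)

theorem mem_pl {κ p : ℕ} (h : p ∈ pl κ) : p.Prime ∧ 2 ^ (8 * κ) ≤ p ∧ p < 2 ^ (16 * κ) := by
  unfold pl at h
  rw [Finset.mem_filter, Finset.mem_range] at h
  exact ⟨h.2.1, h.2.2, h.1⟩

theorem pl_card (κ : ℕ) (hκ : 10 ≤ κ) : 2 ^ (16 * κ) ≤ 32 * κ * (pl κ).card := by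
  have h1 : Nat.primeCounting (2 ^ (16 * κ)) ≤ (pl κ).card + 2 ^ (8 * κ) + 1 := by
    rw [Nat.primeCounting, Nat.primeCounting', Nat.count_eq_card_filter_range]
    have hsub : (Finset.range (2 ^ (16 * κ) + 1)).filter Nat.Prime ⊆
        (pl κ ∪ Finset.range (2 ^ (8 * κ))) ∪ {2 ^ (16 * κ)} := by
      intro p hp
      rw [Finset.mem_filter, Finset.mem_range] at hp
      simp only [pl, Finset.mem_union, Finset.mem_filter, Finset.mem_range, Finset.mem_singleton]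
      by_cases h3 : p = 2 ^ (16 * κ)
      · right; exact h3
      · left
        by_cases h4 : p < 2 ^ (8 * κ)
        · right; exact h4
        · left
          exact ⟨by omega, hp.2, by omega⟩
    calc _ ≤ ((pl κ ∪ Finset.range (2 ^ (8 * κ))) ∪ {2 ^ (16 * κ)}).card := Finset.card_le_card hsub
      _ ≤ (pl κ ∪ Finset.range (2 ^ (8 * κ))).card + 1 := by
          refine (Finset.card_union_le _ _).trans ?_
          rw [Finset.card_singleton]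
      _ ≤ ((pl κ).card + 2 ^ (8 * κ)) + 1 := by
          gcongr
          refine (Finset.card_union_le _ _).trans ?_
          rw [Finset.card_range]
      _ ≤ _ := by omega
  have h2 := P012.pi_lower κ (by omega)
  have h2' : 2 ^ (16 * κ) ≤ (16 * κ) * Nat.primeCounting (2 ^ (16 * κ)) + (16 * κ + 1) := by
    exact_mod_cast h2
  have h3 : (16 * κ) * Nat.primeCounting (2 ^ (16 * κ)) ≤ (16 * κ) * ((pl κ).card + 2 ^ (8 * κ) + 1) :=
    Nat.mul_le_mul_left _ h1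
  have h4 := P012.two_pow_ge κ hκ
  have h5 : 2 ^ (8 * κ) * 2 ^ κ ≤ 2 ^ (16 * κ) := by
    rw [← pow_add]; exact Nat.pow_le_pow_right (by norm_num) (by omega)
  have h6 : (48 * κ + 10) * 2 ^ (8 * κ) ≤ 2 ^ (16 * κ) := by
    calc (48 * κ + 10) * 2 ^ (8 * κ) ≤ 2 ^ κ * 2 ^ (8 * κ) := Nat.mul_le_mul_right _ h4
      _ = 2 ^ (8 * κ) * 2 ^ κ := mul_comm _ _
      _ ≤ _ := h5
  have h7 : 1000 ≤ 2 ^ (8 * κ) := by
    calc 1000 ≤ 2 ^ (8 * 10) := by norm_num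
      _ ≤ 2 ^ (8 * κ) := Nat.pow_le_pow_right (by norm_num) (by omega)
  nlinarith

theorem pow_big (κ : ℕ) (hκ : 64 ≤ κ) : (32 * κ) ^ 4 ≤ 2 ^ (κ - 7) := by
  induction κ, hκ using Nat.le_induction with
  | base => norm_num
  | succ n hn ih =>
    have h1 : (32 * (n + 1)) ^ 4 ≤ 2 * (32 * n) ^ 4 := by
      have h2 : (n + 1) ^ 4 ≤ 2 * n ^ 4 := by
        nlinarith [Nat.mul_le_mul hn hn, pow_pos (show 0 < n by omega) 3, pow_pos (show 0 < n by omega) 2,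
          Nat.mul_le_mul (Nat.mul_le_mul hn hn) hn]
      calc (32 * (n + 1)) ^ 4 = 32 ^ 4 * (n + 1) ^ 4 := by ring
        _ ≤ 32 ^ 4 * (2 * n ^ 4) := Nat.mul_le_mul_left _ h2
        _ = 2 * (32 * n) ^ 4 := by ring
    calc (32 * (n + 1)) ^ 4 ≤ 2 * (32 * n) ^ 4 := h1
      _ ≤ 2 * 2 ^ (n - 7) := Nat.mul_le_mul_left _ ih
      _ = 2 ^ (n + 1 - 7) := by
        rw [← pow_succ']; congr 1; omega

/-- The thirty-second root. -/
noncomputable def rt (m : ℕ) : ℝ := (m : ℝ) ^ ((1 : ℝ) / 32)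

theorem rt_pow (m : ℕ) : rt m ^ 32 = m := by
  unfold rt
  rw [← Real.rpow_natCast, ← Real.rpow_mul (by positivity)]
  norm_num

theorem rt_pos {m : ℕ} (hm : 0 < m) : 0 < rt m := by
  unfold rt
  positivity

theorem rt_ge_one {m : ℕ} (hm : 0 < m) : 1 ≤ rt m := by
  unfold rt
  exact Real.one_le_rpow (by exact_mod_cast hm) (by norm_num)

theorem choose_R (κ m : ℕ) (hκ : 64 ≤ κ) (hm1 : 2 ^ (κ - 7) ≤ m) (hm2 : m ≤ 2 ^ (2 ^ κ)) :
    ∃ R : ℕ, R ≤ 2 ^ (κ - 1) ∧ m ≤ (2 ^ (16 * κ)) ^ R ∧ (32 * κ * R) ^ (4 * R) ≤ m := by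
  have hbig := pow_big κ hκ
  have hm1' : 1 < m := by
    have : (32 * κ) ^ 4 ≤ m := hbig.trans hm1
    have h2 : 1 < (32 * κ) ^ 4 := Nat.one_lt_pow (by norm_num) (by omega)
    omega
  have hY1 : 1 < 2 ^ (16 * κ) := Nat.one_lt_two_pow (by omega)
  refine ⟨Nat.clog (2 ^ (16 * κ)) m, ?_, Nat.le_pow_clog hY1 m, ?_⟩
  all_goals
    set R := Nat.clog (2 ^ (16 * κ)) m with hR
    have hR1 : 0 < R := Nat.clog_pos hY1 hm1'
    have hlt : (2 ^ (16 * κ)) ^ (R - 1) < m := by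
      have := Nat.pow_pred_clog_lt_self hY1 hm1'
      rwa [← hR, Nat.pred_eq_sub_one] at this
    have hRb : 16 * κ * (R - 1) < 2 ^ κ := by
      rw [← pow_mul] at hlt
      exact (Nat.pow_lt_pow_iff_right (by norm_num : 1 < 2)).1 (hlt.trans_le hm2)
    have h32 : 32 * κ ≤ 2 ^ κ := by
      have := P012.two_pow_ge κ (by omega)
      omega
  · -- R ≤ 2 ^ (κ - 1)
    have h1 : R - 1 < 2 ^ (κ - 1) := by
      have h2 : 2 ^ κ = 2 * 2 ^ (κ - 1) := by rw [← pow_succ']; congr 1; omega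
      by_contra h
      push Not at h
      have h3 : 16 * κ * 2 ^ (κ - 1) ≤ 16 * κ * (R - 1) := Nat.mul_le_mul_left _ h
      have h4 : 2 * 2 ^ (κ - 1) ≤ 16 * κ * 2 ^ (κ - 1) := Nat.mul_le_mul_right _ (by omega)
      omega
    omega
  · rcases Nat.lt_or_ge R 2 with h | h
    · have h1 : R = 1 := by omega
      rw [h1, mul_one, mul_one]
      exact hbig.trans hm1
    · have h1 : 32 * κ * R ≤ 2 ^ (κ + 2) := by
        have h2 : 32 * κ * R = 32 * κ + 2 * (16 * κ * (R - 1)) := by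
          obtain ⟨r, hr⟩ : ∃ r, R = r + 1 := ⟨R - 1, by omega⟩
          rw [hr, Nat.add_sub_cancel]; ring
        rw [h2, pow_add]
        omega
      calc (32 * κ * R) ^ (4 * R) ≤ (2 ^ (κ + 2)) ^ (4 * R) := Nat.pow_le_pow_left h1 _
        _ = 2 ^ ((κ + 2) * (4 * R)) := by rw [← pow_mul]
        _ ≤ 2 ^ (16 * κ * (R - 1)) := by
            apply Nat.pow_le_pow_right (by norm_num)
            obtain ⟨r, hr⟩ : ∃ r, R = r + 1 := ⟨R - 1, by omega⟩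
            have hr1 : 1 ≤ r := by omega
            rw [hr, Nat.add_sub_cancel]
            nlinarith [Nat.mul_le_mul (show 64 ≤ κ from hκ) hr1]
        _ = (2 ^ (16 * κ)) ^ (R - 1) := by rw [← pow_mul]
        _ ≤ m := hlt.le

theorem avg_final (κ m : ℕ) (hκ : 64 ≤ κ) (hm1 : 2 ^ (κ - 7) ≤ m) (hm2 : m ≤ 2 ^ (2 ^ κ)) :
    ∑ p ∈ (Fintype.piFinset (fun _ : Fin (8 * 2 ^ κ) => pl κ)).filter
      (fun p => ∀ i, Nat.Coprime (p i) m), (coll (av p) m : ℝ) ≤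
      ((pl κ).card : ℝ) ^ (8 * 2 ^ κ) * (4 ^ (8 * 2 ^ κ) * (3 / rt m ^ 24)) := by
  obtain ⟨R, hR1, hR2, hR3⟩ := choose_R κ m hκ hm1 hm2
  have hm0 : 0 < m := lt_of_lt_of_le (by positivity) hm1
  have hρ := rt_pos hm0
  have hρ1 := rt_ge_one hm0
  set ρ := rt m with hρdef
  have hρ32 : ρ ^ 32 = m := rt_pow m
  have hκpos : (0 : ℝ) < κ := by exact_mod_cast (by omega : 0 < κ)
  have hmr : (0 : ℝ) < m := by exact_mod_cast hm0
  set Y := 2 ^ (16 * κ) with hY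
  have hk : R ≤ 8 * 2 ^ κ := by
    have : 2 ^ (κ - 1) ≤ 2 ^ κ := Nat.pow_le_pow_right (by norm_num) (by omega)
    omega
  have hplc := pl_card κ (by omega)
  have hplr : (Y : ℝ) ≤ 32 * κ * ((pl κ).card : ℝ) := by exact_mod_cast hplc
  -- the key numeric inequality
  have h8 : ((32 * κ * R : ℕ) : ℝ) ^ R ≤ ρ ^ 8 := by
    have h9 : (((32 * κ * R : ℕ) : ℝ) ^ R) ^ 4 ≤ (ρ ^ 8) ^ 4 := by
      rw [← pow_mul, ← pow_mul, mul_comm R 4]
      norm_num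
      rw [hρ32]
      exact_mod_cast hR3
    exact le_of_pow_le_pow_left₀ (by norm_num) (by positivity) h9
  have hW : (((Y ^ R / m + 1) * R.factorial : ℕ) : ℝ) ≤ (2 / ρ ^ 24) * ((pl κ).card : ℝ) ^ R := by
    have h10 : ((Y ^ R / m + 1 : ℕ) : ℝ) ≤ 2 * ((Y : ℝ) ^ R / m) := by
      push_cast
      have h11 : ((Y ^ R / m : ℕ) : ℝ) ≤ (Y : ℝ) ^ R / m := by
        have := @Nat.cast_div_le ℝ _ _ _ (Y ^ R) m
        push_cast at this
        exact this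
      have h12 : (1 : ℝ) ≤ (Y : ℝ) ^ R / m := by
        rw [le_div_iff₀ hmr, one_mul]
        exact_mod_cast hR2
      linarith
    have h13 : (R.factorial : ℝ) ≤ (R : ℝ) ^ R := by exact_mod_cast Nat.factorial_le_pow R
    have h14 : (Y : ℝ) ^ R ≤ (32 * κ) ^ R * ((pl κ).card : ℝ) ^ R := by
      rw [← mul_pow]; gcongr
    calc (((Y ^ R / m + 1) * R.factorial : ℕ) : ℝ) = ((Y ^ R / m + 1 : ℕ) : ℝ) * (R.factorial : ℝ) := by
          push_cast; ring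
      _ ≤ (2 * ((Y : ℝ) ^ R / m)) * (R : ℝ) ^ R := by gcongr
      _ ≤ (2 * (((32 * κ) ^ R * ((pl κ).card : ℝ) ^ R) / m)) * (R : ℝ) ^ R := by gcongr
      _ = 2 / m * ((pl κ).card : ℝ) ^ R * ((32 * κ * R : ℕ) : ℝ) ^ R := by
          push_cast
          rw [mul_pow (32 * (κ : ℝ)) (R : ℝ)]
          ring
      _ ≤ 2 / m * ((pl κ).card : ℝ) ^ R * ρ ^ 8 := by gcongr
      _ = (2 / ρ ^ 24) * ((pl κ).card : ℝ) ^ R := by
          rw [← hρ32]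
          field_simp
  have havg := avg_coll (k := 8 * 2 ^ κ) (pl κ) Y m R hm0 hk
    (fun q hq => ⟨(mem_pl hq).1, (mem_pl hq).2.2.le⟩) (2 / ρ ^ 24) (by positivity) hW
  refine havg.trans ?_
  have htail : (2 : ℝ) ^ R * (7 / 2) ^ (8 * 2 ^ κ) ≤ 4 ^ (8 * 2 ^ κ) * (1 / ρ ^ 24) := by
    rw [mul_one_div, le_div_iff₀ (by positivity)]
    have h20 : ρ ^ 24 ≤ (4 : ℝ) ^ (2 ^ (κ - 1)) := by
      calc ρ ^ 24 ≤ ρ ^ 32 := pow_le_pow_right₀ hρ1 (by norm_num)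
        _ = m := hρ32
        _ ≤ ((2 ^ (2 ^ κ) : ℕ) : ℝ) := by exact_mod_cast hm2
        _ = (4 : ℝ) ^ (2 ^ (κ - 1)) := by
          push_cast
          rw [show (4 : ℝ) = 2 ^ 2 by norm_num, ← pow_mul, ← pow_succ']
          congr 2; omega
    have h21 : (2 : ℝ) ^ R ≤ 2 ^ (2 ^ (κ - 1)) := pow_le_pow_right₀ (by norm_num) hR1
    have h22 : 8 * 2 ^ κ = 16 * 2 ^ (κ - 1) := by
      have : 2 ^ κ = 2 * 2 ^ (κ - 1) := by rw [← pow_succ']; congr 1; omega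
      rw [this]; ring
    rw [h22, pow_mul, pow_mul]
    calc (2 : ℝ) ^ R * ((7 / 2) ^ 16) ^ 2 ^ (κ - 1) * ρ ^ 24
        ≤ 2 ^ (2 ^ (κ - 1)) * ((7 / 2) ^ 16) ^ 2 ^ (κ - 1) * (4 : ℝ) ^ (2 ^ (κ - 1)) := by gcongr
      _ = (2 * (7 / 2) ^ 16 * 4) ^ (2 ^ (κ - 1)) := by rw [mul_pow, mul_pow]
      _ ≤ (4 ^ 16) ^ (2 ^ (κ - 1)) := by
          apply pow_le_pow_left₀ (by positivity)
          norm_num
  calc ((pl κ).card : ℝ) ^ (8 * 2 ^ κ) * (4 ^ (8 * 2 ^ κ) * (2 / ρ ^ 24) + 2 ^ R * (7 / 2) ^ (8 * 2 ^ κ))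
      ≤ ((pl κ).card : ℝ) ^ (8 * 2 ^ κ) * (4 ^ (8 * 2 ^ κ) * (2 / ρ ^ 24) +
        4 ^ (8 * 2 ^ κ) * (1 / ρ ^ 24)) := by gcongr
    _ = _ := by ring

end Vale.Agent.Lib.P012F
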