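import Vale.Agent.Lib.P012F.Four

namespace Vale.Agent.Lib.P012F

open Finset

theorem card_fact {k : ℕ} (J : Finset (Fin k)) : ∀ (c : Fin k → ℕ) (n : ℕ) (F : Finset (Fin k → ℕ)),
    (∀ p ∈ F, (∀ i, i ∉ J → p i = c i) ∧ (∀ i ∈ J, (p i).Prime) ∧ ∏ i ∈ J, p i = n) →
    F.card ≤ J.card.factorial := by
  classical
  induction J using Finset.induction_on with
  | empty =>
    intro c n F hF
    rw [Finset.card_empty, Nat.factorial_zero, Finset.card_le_one]
    intro p hp q hq
    funext i
    rw [(hF p hp).1 i (Finset.notMem_empty _), (hF q hq).1 i (Finset.notMem_empty _)]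
  | insert j J hj ih =>
    intro c n F hF
    rcases F.eq_empty_or_nonempty with rfl | ⟨p₀, hp₀⟩
    · simp
    · have hn : n.primeFactors.card ≤ (insert j J).card := by
        have hsub : n.primeFactors ⊆ (insert j J).image p₀ := by
          intro q hq
          have hq1 := Nat.prime_of_mem_primeFactors hq
          have hq2 := Nat.dvd_of_mem_primeFactors hq
          rw [← (hF p₀ hp₀).2.2] at hq2
          obtain ⟨i, hi, hqi⟩ := (hq1.prime.dvd_finsetProd_iff _).1 hq2
          rw [Finset.mem_image]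
          exact ⟨i, hi, ((Nat.prime_dvd_prime_iff_eq hq1 ((hF p₀ hp₀).2.1 i hi)).1 hqi).symm⟩
        exact (Finset.card_le_card hsub).trans Finset.card_image_le
      have hmaps : ∀ p ∈ F, p j ∈ n.primeFactors := by
        intro p hp
        obtain ⟨_, h2, h3⟩ := hF p hp
        rw [Nat.mem_primeFactors]
        refine ⟨h2 j (Finset.mem_insert_self _ _), ?_, ?_⟩
        · rw [← h3]; exact Finset.dvd_prod_of_mem _ (Finset.mem_insert_self _ _)
        · rw [← h3]
          exact (Finset.prod_pos fun i hi => (h2 i hi).pos).ne'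
      rw [Finset.card_eq_sum_card_fiberwise (f := fun p : Fin k → ℕ => p j) (t := n.primeFactors)
        (fun p hp => Finset.mem_coe.2 (hmaps p (Finset.mem_coe.1 hp)))]
      have hfib : ∀ q ∈ n.primeFactors, (F.filter (fun p => p j = q)).card ≤ J.card.factorial := by
        intro q hq
        have hqpos : 0 < q := (Nat.prime_of_mem_primeFactors hq).pos
        refine ih (Function.update c j q) (n / q) _ ?_
        intro p hp
        obtain ⟨hpF, hpj⟩ := Finset.mem_filter.1 hp
        obtain ⟨h1, h2, h3⟩ := hF p hpF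
        refine ⟨?_, fun i hi => h2 i (Finset.mem_insert_of_mem hi), ?_⟩
        · intro i hi
          by_cases hij : i = j
          · subst hij; rw [hpj, Function.update_self]
          · rw [Function.update_of_ne hij]
            exact h1 i (by
              rw [Finset.mem_insert]; tauto)
        · rw [Finset.prod_insert hj, hpj] at h3
          rw [← h3, Nat.mul_div_cancel_left _ hqpos]
      calc ∑ q ∈ n.primeFactors, (F.filter (fun p => p j = q)).card
          ≤ ∑ _q ∈ n.primeFactors, J.card.factorial := Finset.sum_le_sum hfib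
        _ = n.primeFactors.card * J.card.factorial := by rw [Finset.sum_const, smul_eq_mul]
        _ ≤ (insert j J).card * J.card.factorial := Nat.mul_le_mul_right _ hn
        _ = (insert j J).card.factorial := by
            rw [Finset.card_insert_of_notMem hj, Nat.factorial_succ]

/-- Number of integers up to `N` in a residue class. -/
theorem card_residue (m N : ℕ) (hm : 0 < m) (T : Finset ℕ) (n₀ : ℕ) (hT : ∀ n ∈ T, n ≤ N ∧ (n : ZMod m) = n₀) :
    T.card ≤ N / m + 1 := by
  have : T.card ≤ (Finset.range (N / m + 1)).card := by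
    apply Finset.card_le_card_of_injOn (fun n => n / m)
    · intro n hn
      rw [Finset.mem_coe, Finset.mem_range, Nat.lt_succ_iff]
      exact Nat.div_le_div_right (hT n hn).1
    · intro n hn n' hn' h
      have h1 : (n : ZMod m) = n' := by rw [(hT n hn).2, (hT n' hn').2]
      rw [ZMod.natCast_eq_natCast_iff] at h1
      change n / m = n' / m at h
      rw [← Nat.div_add_mod n m, ← Nat.div_add_mod n' m, h, h1]
  rwa [Finset.card_range] at this

/-- The value of a subset. -/
def av {k : ℕ} (p : Fin k → ℕ) (I : Finset (Fin k)) : ℕ := ∏ i ∈ I, p i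

theorem pair_bound {k : ℕ} (P : Finset ℕ) (Y m R : ℕ) (hm : 0 < m)
    (hP : ∀ q ∈ P, q.Prime ∧ q ≤ Y) (I I' J : Finset (Fin k)) (hJ : J ⊆ I \ I') (hR : J.card = R) :
    ((Fintype.piFinset (fun _ : Fin k => P)).filter (fun p => (∀ i, Nat.Coprime (p i) m) ∧
      (av p I : ZMod m) = (av p I' : ZMod m))).card ≤ (Y ^ R / m + 1) * R.factorial * P.card ^ (k - R) := by
  classical
  set E := (Fintype.piFinset (fun _ : Fin k => P)).filter (fun p => (∀ i, Nat.Coprime (p i) m) ∧
      (av p I : ZMod m) = (av p I' : ZMod m)) with hE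
  set f : (Fin k → ℕ) → (Fin k → ℕ) := fun p i => if i ∈ J then 0 else p i with hf
  have himg : (E.image f).card ≤ P.card ^ (k - R) := by
    have hsub : E.image f ⊆ Fintype.piFinset (fun i => if i ∈ J then {0} else P) := by
      intro c hc
      obtain ⟨p, hp, rfl⟩ := Finset.mem_image.1 hc
      rw [Fintype.mem_piFinset]
      intro i
      have hp' := Fintype.mem_piFinset.1 (Finset.mem_filter.1 hp).1 i
      by_cases hi : i ∈ J
      · simp [hf, hi]
      · simp only [hf, hi, if_false]; exact hp'
    refine (Finset.card_le_card hsub).trans ?_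
    rw [Fintype.card_piFinset]
    have : ∀ i : Fin k, (if i ∈ J then ({0} : Finset ℕ) else P).card = if i ∈ J then 1 else P.card := by
      intro i; split_ifs <;> simp
    rw [Finset.prod_congr rfl fun i _ => this i, Finset.prod_ite, Finset.prod_const_one, one_mul,
      Finset.prod_const]
    apply le_of_eq
    congr 1
    have h1 : (univ.filter (fun i : Fin k => i ∉ J)) = univ \ J := by
      ext i; simp
    rw [h1, Finset.card_sdiff_of_subset (Finset.subset_univ _), Finset.card_univ, Fintype.card_fin, hR]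
  have hfib : ∀ c ∈ E.image f, (E.filter (fun p => f p = c)).card ≤ (Y ^ R / m + 1) * R.factorial := by
    intro c hc
    set Fc := E.filter (fun p => f p = c) with hFc
    obtain ⟨p₀, hp₀, hp₀c⟩ := Finset.mem_image.1 hc
    have hout : ∀ p ∈ Fc, ∀ i, i ∉ J → p i = p₀ i := by
      intro p hp i hi
      have h1 := (Finset.mem_filter.1 hp).2
      rw [← hp₀c] at h1
      have h2 := congrFun h1 i
      simpa [hf, hi] using h2
    set g : (Fin k → ℕ) → ℕ := fun p => ∏ i ∈ J, p i with hg
    have hpr : ∀ p ∈ Fc, ∀ i, (p i).Prime ∧ p i ≤ Y := by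
      intro p hp i
      have h1 := (Finset.mem_filter.1 (Finset.mem_filter.1 hp).1).1
      exact hP _ (Fintype.mem_piFinset.1 h1 i)
    have hkey : ∀ p ∈ E, (g p : ZMod m) * ((∏ i ∈ I \ J, p i : ℕ) : ZMod m) = (av p I' : ZMod m) := by
      intro p hp
      have h1 := (Finset.mem_filter.1 hp).2.2
      rw [← h1, ← Nat.cast_mul]
      congr 1
      have hJI : J ⊆ I := hJ.trans Finset.sdiff_subset
      rw [hg, av, mul_comm]
      exact Finset.prod_sdiff hJI
    have hstep1 : (Fc.image g).card ≤ Y ^ R / m + 1 := by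
      refine card_residue m (Y ^ R) hm _ (g p₀) ?_
      intro n hn
      obtain ⟨p, hp, rfl⟩ := Finset.mem_image.1 hn
      constructor
      · rw [← hR, ← Finset.prod_const]
        exact Finset.prod_le_prod' fun i _ => (hpr p hp i).2
      · have hpE := (Finset.mem_filter.1 hp).1
        have h1 := hkey p hpE
        have h2 := hkey p₀ hp₀
        have h3 : ∏ i ∈ I \ J, p i = ∏ i ∈ I \ J, p₀ i :=
          Finset.prod_congr rfl fun i hi => hout p hp i (Finset.mem_sdiff.1 hi).2
        have h4 : av p I' = av p₀ I' := Finset.prod_congr rfl fun i hi => hout p hp i fun hiJ =>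
          (Finset.mem_sdiff.1 (hJ hiJ)).2 hi
        rw [h3, h4, ← h2] at h1
        have hu : IsUnit ((∏ i ∈ I \ J, p₀ i : ℕ) : ZMod m) := by
          rw [ZMod.isUnit_iff_coprime]
          exact Nat.Coprime.prod_left fun i _ => (Finset.mem_filter.1 hp₀).2.1 i
        exact hu.mul_right_cancel h1
    have hstep2 : ∀ n ∈ Fc.image g, (Fc.filter (fun p => g p = n)).card ≤ R.factorial := by
      intro n _
      rw [← hR]
      refine card_fact J p₀ n _ ?_
      intro p hp
      obtain ⟨hp1, hp2⟩ := Finset.mem_filter.1 hp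
      exact ⟨hout p hp1, fun i _ => (hpr p hp1 i).1, hp2⟩
    calc Fc.card ≤ R.factorial * (Fc.image g).card := Finset.card_le_mul_card_image Fc _ hstep2
      _ ≤ R.factorial * (Y ^ R / m + 1) := Nat.mul_le_mul_left _ hstep1
      _ = _ := mul_comm _ _
  calc E.card ≤ ((Y ^ R / m + 1) * R.factorial) * (E.image f).card :=
        Finset.card_le_mul_card_image E _ hfib
    _ ≤ _ := Nat.mul_le_mul_left _ himg

theorem sum_half (k : ℕ) : ∑ z : Finset (Fin k) × Finset (Fin k), (1 / 2 : ℝ) ^ (z.1 \ z.2).card =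
    (7 / 2 : ℝ) ^ k := by
  classical
  rw [← Finset.univ_product_univ, Finset.sum_product_right]
  have h1 : ∀ I' : Finset (Fin k), ∑ I : Finset (Fin k), (1 / 2 : ℝ) ^ (I \ I').card =
      (∏ _i ∈ I', (2 : ℝ)) * ∏ _i ∈ univ \ I', (3 / 2 : ℝ) := by
    intro I'
    have h2 : ∀ I : Finset (Fin k), (1 / 2 : ℝ) ^ (I \ I').card =
        ∏ i ∈ I, (if i ∈ I' then (1 : ℝ) else 1 / 2) := by
      intro I
      rw [Finset.prod_ite, Finset.prod_const_one, one_mul, Finset.prod_const]
      congr 2
      ext i; simp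
    rw [Finset.sum_congr rfl fun I _ => h2 I, ← Finset.powerset_univ, ← Finset.prod_one_add]
    have h3 : ∀ i : Fin k, (1 : ℝ) + (if i ∈ I' then (1 : ℝ) else 1 / 2) =
        if i ∈ I' then (2 : ℝ) else 3 / 2 := by
      intro i; split_ifs <;> norm_num
    rw [Finset.prod_congr rfl fun i _ => h3 i, Finset.prod_ite]
    congr 1
    · congr 1; ext i; simp
    · congr 1; ext i; simp
  rw [Finset.sum_congr rfl fun I' _ => h1 I', ← Finset.powerset_univ, ← Finset.prod_add,
    Finset.prod_const, Finset.card_univ, Fintype.card_fin]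
  norm_num

theorem avg_coll {k : ℕ} (P : Finset ℕ) (Y m R : ℕ) (hm : 0 < m) (hRk : R ≤ k)
    (hP : ∀ q ∈ P, q.Prime ∧ q ≤ Y) (W : ℝ) (hW0 : 0 ≤ W)
    (hW : (((Y ^ R / m + 1) * R.factorial : ℕ) : ℝ) ≤ W * (P.card : ℝ) ^ R) :
    ∑ p ∈ (Fintype.piFinset (fun _ : Fin k => P)).filter (fun p => ∀ i, Nat.Coprime (p i) m),
      (coll (av p) m : ℝ) ≤ (P.card : ℝ) ^ k * (4 ^ k * W + 2 ^ R * (7 / 2) ^ k) := by
  classical
  set A := (Fintype.piFinset (fun _ : Fin k => P)).filter (fun p => ∀ i, Nat.Coprime (p i) m) with hA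
  have hAc : (A.card : ℝ) ≤ (P.card : ℝ) ^ k := by
    have h1 : A.card ≤ P.card ^ k := by
      refine (Finset.card_filter_le _ _).trans ?_
      rw [Fintype.card_piFinset, Finset.prod_const, Finset.card_univ, Fintype.card_fin]
    exact_mod_cast h1
  have hswap : ∑ p ∈ A, (coll (av p) m : ℝ) = ∑ z : Finset (Fin k) × Finset (Fin k),
      ((A.filter (fun p => (av p z.1 : ZMod m) = (av p z.2 : ZMod m))).card : ℝ) := by
    have h1 : ∀ p : Fin k → ℕ, (coll (av p) m : ℝ) = ∑ z : Finset (Fin k) × Finset (Fin k),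
        if (av p z.1 : ZMod m) = (av p z.2 : ZMod m) then (1 : ℝ) else 0 := by
      intro p
      unfold coll
      rw [Finset.card_filter]
      push_cast
      rfl
    rw [Finset.sum_congr rfl fun p _ => h1 p, Finset.sum_comm]
    refine Finset.sum_congr rfl fun z _ => ?_
    rw [Finset.card_filter]
    push_cast
    rfl
  have hz : ∀ z : Finset (Fin k) × Finset (Fin k),
      ((A.filter (fun p => (av p z.1 : ZMod m) = (av p z.2 : ZMod m))).card : ℝ) ≤
      (P.card : ℝ) ^ k * (W + 2 ^ R * (1 / 2) ^ (z.1 \ z.2).card) := by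
    intro z
    by_cases hR : R ≤ (z.1 \ z.2).card
    · obtain ⟨J, hJ, hJc⟩ := Finset.exists_subset_card_eq hR
      have h1 := pair_bound P Y m R hm hP z.1 z.2 J hJ hJc
      have h2 : A.filter (fun p => (av p z.1 : ZMod m) = (av p z.2 : ZMod m)) =
          (Fintype.piFinset (fun _ : Fin k => P)).filter (fun p => (∀ i, Nat.Coprime (p i) m) ∧
            (av p z.1 : ZMod m) = (av p z.2 : ZMod m)) := by
        rw [hA, Finset.filter_filter]
      rw [h2]
      calc (((Fintype.piFinset (fun _ : Fin k => P)).filter (fun p => (∀ i, Nat.Coprime (p i) m) ∧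
            (av p z.1 : ZMod m) = (av p z.2 : ZMod m))).card : ℝ)
          ≤ (((Y ^ R / m + 1) * R.factorial * P.card ^ (k - R) : ℕ) : ℝ) := by exact_mod_cast h1
        _ = (((Y ^ R / m + 1) * R.factorial : ℕ) : ℝ) * (P.card : ℝ) ^ (k - R) := by push_cast; ring
        _ ≤ (W * (P.card : ℝ) ^ R) * (P.card : ℝ) ^ (k - R) := by gcongr
        _ = (P.card : ℝ) ^ k * W := by
            rw [mul_assoc, ← pow_add, Nat.add_sub_cancel' hRk, mul_comm]
        _ ≤ _ := by
            gcongr
            have : (0 : ℝ) ≤ 2 ^ R * (1 / 2) ^ (z.1 \ z.2).card := by positivity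
            linarith
    · push Not at hR
      have h3 : (1 : ℝ) ≤ 2 ^ R * (1 / 2) ^ (z.1 \ z.2).card := by
        rw [one_div, inv_pow, ← div_eq_mul_inv, le_div_iff₀ (by positivity), one_mul]
        exact pow_le_pow_right₀ (by norm_num) hR.le
      calc ((A.filter (fun p => (av p z.1 : ZMod m) = (av p z.2 : ZMod m))).card : ℝ)
          ≤ (A.card : ℝ) := by exact_mod_cast Finset.card_filter_le _ _
        _ ≤ (P.card : ℝ) ^ k := hAc
        _ = (P.card : ℝ) ^ k * 1 := (mul_one _).symm
        _ ≤ _ := by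
            gcongr
            linarith
  rw [hswap]
  calc _ ≤ ∑ z : Finset (Fin k) × Finset (Fin k),
        (P.card : ℝ) ^ k * (W + 2 ^ R * (1 / 2) ^ (z.1 \ z.2).card) := Finset.sum_le_sum fun z _ => hz z
    _ = (P.card : ℝ) ^ k * (4 ^ k * W + 2 ^ R * (7 / 2) ^ k) := by
        rw [← Finset.mul_sum, Finset.sum_add_distrib, ← Finset.mul_sum, sum_half, Finset.sum_const,
          Finset.card_univ, Fintype.card_prod, Fintype.card_finset, Fintype.card_fin, nsmul_eq_mul]
        congr 2
        push_cast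
        rw [← mul_pow]
        norm_num

end Vale.Agent.Lib.P012F
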