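import Vale.Agent.Lib.P012F.Choose

namespace Vale.Agent.Lib.P012F

open Finset

/-- A modulus is bad for the family `p`. -/
def BadMod {k : ℕ} (p : Fin k → ℕ) (m : ℕ) : Prop :=
  (∀ i, Nat.Coprime (p i) m) ∧ (2 ^ k) ^ 16 < coll (av p) m ^ 8 * m ^ 5

instance {k : ℕ} (p : Fin k → ℕ) (m : ℕ) : Decidable (BadMod p m) := by
  unfold BadMod; infer_instance

theorem bad_count (κ m : ℕ) (hκ : 64 ≤ κ) (hm1 : 2 ^ (κ - 7) ≤ m) (hm2 : m ≤ 2 ^ (2 ^ κ)) :
    (((Fintype.piFinset (fun _ : Fin (8 * 2 ^ κ) => pl κ)).filter (fun p => BadMod p m)).card : ℝ) ≤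
      ((pl κ).card : ℝ) ^ (8 * 2 ^ κ) * (3 / rt m ^ 4) := by
  have hm0 : 0 < m := lt_of_lt_of_le (by positivity) hm1
  have hρ := rt_pos hm0
  set ρ := rt m with hρdef
  have hρ32 : ρ ^ 32 = m := rt_pow m
  set k := 8 * 2 ^ κ with hk
  set B := (Fintype.piFinset (fun _ : Fin k => pl κ)).filter (fun p => BadMod p m) with hB
  have havg := avg_final κ m hκ hm1 hm2
  rw [← hρdef] at havg
  have h1 : (B.card : ℝ) * (4 ^ k / ρ ^ 20) ≤ ∑ p ∈ (Fintype.piFinset (fun _ : Fin k => pl κ)).filter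
      (fun p => ∀ i, Nat.Coprime (p i) m), (coll (av p) m : ℝ) := by
    calc (B.card : ℝ) * (4 ^ k / ρ ^ 20) = ∑ _p ∈ B, (4 ^ k / ρ ^ 20 : ℝ) := by
          rw [Finset.sum_const, nsmul_eq_mul]
      _ ≤ ∑ p ∈ B, (coll (av p) m : ℝ) := by
          refine Finset.sum_le_sum fun p hp => ?_
          have hbad := (Finset.mem_filter.1 hp).2.2
          have hbadr : ((2 : ℝ) ^ k) ^ 16 < (coll (av p) m : ℝ) ^ 8 * (m : ℝ) ^ 5 := by exact_mod_cast hbad
          rw [div_le_iff₀ (by positivity)]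
          have h2 : ((4 : ℝ) ^ k) ^ 8 ≤ ((coll (av p) m : ℝ) * ρ ^ 20) ^ 8 := by
            calc ((4 : ℝ) ^ k) ^ 8 = ((2 : ℝ) ^ k) ^ 16 := by
                  rw [show (4 : ℝ) = 2 ^ 2 by norm_num, ← pow_mul, ← pow_mul, ← pow_mul]
                  congr 1; ring
              _ ≤ (coll (av p) m : ℝ) ^ 8 * (m : ℝ) ^ 5 := hbadr.le
              _ = ((coll (av p) m : ℝ) * ρ ^ 20) ^ 8 := by rw [← hρ32]; ring
          exact le_of_pow_le_pow_left₀ (by norm_num) (by positivity) h2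
      _ ≤ _ := by
          apply Finset.sum_le_sum_of_subset_of_nonneg
          · intro p hp
            rw [Finset.mem_filter] at hp ⊢
            exact ⟨hp.1, hp.2.1⟩
          · intro _ _ _; positivity
  have h3 : (B.card : ℝ) * (4 ^ k / ρ ^ 20) ≤
      (((pl κ).card : ℝ) ^ k * (3 / ρ ^ 4)) * (4 ^ k / ρ ^ 20) := by
    refine h1.trans (havg.trans (le_of_eq ?_))
    rw [hk]
    field_simp
  exact le_of_mul_le_mul_right h3 (by positivity)

theorem summable_rt : Summable (fun m : ℕ => 3 / rt m ^ 35) := by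
  have h1 : ∀ m : ℕ, 3 / rt m ^ 35 = 3 * (1 / (m : ℝ) ^ ((35 : ℝ) / 32)) := by
    intro m
    have : rt m ^ 35 = (m : ℝ) ^ ((35 : ℝ) / 32) := by
      unfold rt
      rw [← Real.rpow_natCast, ← Real.rpow_mul (by positivity)]
      norm_num
    rw [this]; ring
  simp_rw [h1]
  apply Summable.mul_left
  rw [Real.summable_one_div_nat_rpow]
  norm_num

theorem tail_small (ε : ℝ) (hε : 0 < ε) : ∃ X₀ : ℕ, ∀ X T : ℕ, X₀ ≤ X →
    ∑ m ∈ Finset.Icc X T, 3 / rt m ^ 35 ≤ ε := by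
  obtain ⟨s, hs⟩ := summable_iff_vanishing_norm.1 summable_rt ε hε
  refine ⟨s.sup id + 1, fun X T hX => ?_⟩
  have hdis : Disjoint (Finset.Icc X T) s := by
    rw [Finset.disjoint_left]
    intro m hm hms
    have h1 : m ≤ s.sup id := Finset.le_sup (f := id) hms
    rw [Finset.mem_Icc] at hm
    omega
  have := hs _ hdis
  exact (le_abs_self _).trans this.le

theorem exists_p (ε : ℝ) (hε : 0 < ε) : ∃ κ₀ : ℕ, 64 ≤ κ₀ ∧ ∀ κ : ℕ, κ₀ ≤ κ →
    ∃ p : Fin (8 * 2 ^ κ) → ℕ, (∀ i, p i ∈ pl κ) ∧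
      ∑ m ∈ (Finset.Icc (2 ^ (κ - 7)) (2 ^ (2 ^ κ))).filter (fun m => BadMod p m),
        1 / rt m ^ 31 ≤ ε := by
  obtain ⟨X₀, hX₀⟩ := tail_small ε hε
  refine ⟨64 + X₀ + 7, by omega, fun κ hκ => ?_⟩
  have hκ64 : 64 ≤ κ := by omega
  have hX : X₀ ≤ 2 ^ (κ - 7) := by
    calc X₀ ≤ κ - 7 := by omega
      _ ≤ 2 ^ (κ - 7) := Nat.lt_two_pow_self.le
  set k := 8 * 2 ^ κ with hk
  set A := Fintype.piFinset (fun _ : Fin k => pl κ) with hA
  set I := Finset.Icc (2 ^ (κ - 7)) (2 ^ (2 ^ κ)) with hI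
  have hplpos : 0 < (pl κ).card := by
    have := pl_card κ (by omega)
    rcases Nat.eq_zero_or_pos (pl κ).card with h | h
    · rw [h, mul_zero] at this
      have : 0 < 2 ^ (16 * κ) := by positivity
      omega
    · exact h
  have hAne : A.Nonempty := by
    rw [hA, Fintype.piFinset_nonempty]
    intro _
    exact Finset.card_pos.1 hplpos
  have hAcard : (A.card : ℝ) = ((pl κ).card : ℝ) ^ k := by
    rw [hA, Fintype.card_piFinset, Finset.prod_const, Finset.card_univ, Fintype.card_fin]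
    push_cast; rfl
  have htot : ∑ p ∈ A, ∑ m ∈ I.filter (fun m => BadMod p m), 1 / rt m ^ 31 ≤ ∑ _p ∈ A, ε := by
    have h1 : ∑ p ∈ A, ∑ m ∈ I.filter (fun m => BadMod p m), 1 / rt m ^ 31 =
        ∑ m ∈ I, ((A.filter (fun p => BadMod p m)).card : ℝ) * (1 / rt m ^ 31) := by
      simp_rw [Finset.sum_filter]
      rw [Finset.sum_comm]
      refine Finset.sum_congr rfl fun m _ => ?_
      rw [← Finset.sum_filter, Finset.sum_const, nsmul_eq_mul]
    rw [h1]
    calc _ ≤ ∑ m ∈ I, (((pl κ).card : ℝ) ^ k * (3 / rt m ^ 4)) * (1 / rt m ^ 31) := by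
          refine Finset.sum_le_sum fun m hm => ?_
          rw [hI, Finset.mem_Icc] at hm
          have hm0 : 0 < m := lt_of_lt_of_le (by positivity) hm.1
          have hρ := rt_pos hm0
          have := bad_count κ m hκ64 hm.1 hm.2
          gcongr
      _ = ((pl κ).card : ℝ) ^ k * ∑ m ∈ I, 3 / rt m ^ 35 := by
          rw [Finset.mul_sum]
          refine Finset.sum_congr rfl fun m hm => ?_
          rw [hI, Finset.mem_Icc] at hm
          have hm0 : 0 < m := lt_of_lt_of_le (by positivity) hm.1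
          have hρ := rt_pos hm0
          field_simp
      _ ≤ ((pl κ).card : ℝ) ^ k * ε := by
          gcongr
          exact hX₀ _ _ hX
      _ = ∑ _p ∈ A, ε := by rw [Finset.sum_const, nsmul_eq_mul, hAcard]
  obtain ⟨p, hpA, hp⟩ := Finset.exists_le_of_sum_le hAne htot
  exact ⟨p, fun i => Fintype.mem_piFinset.1 hpA i, hp⟩

end Vale.Agent.Lib.P012F
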