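import Mathlib

namespace Vale.Agent.Lib.P012F

open Finset

variable {Ω : Type*} [Fintype Ω]

/-- Number of pairs congruent modulo `m`. -/
def coll (a : Ω → ℕ) (m : ℕ) : ℕ :=
  (univ.filter (fun z : Ω × Ω => (a z.1 : ZMod m) = (a z.2 : ZMod m))).card

theorem prim_bound (a : Ω → ℕ) (m : ℕ) [NeZero m] (u : ℕ) (hu : Nat.Coprime u m) :
    ‖∑ x : Ω, ∑ y : Ω, (ZMod.stdAddChar ((u : ZMod m) * ((a x : ZMod m) * (a y : ZMod m))) : ℂ)‖ ^ 2 ≤
      (m : ℝ) * (coll a m : ℝ) ^ 2 := by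
  classical
  set G : ZMod m → ℂ := fun r => ∑ y : Ω, ZMod.stdAddChar (r * ((u : ZMod m) * (a y : ZMod m))) with hG
  have huu : IsUnit (u : ZMod m) := (ZMod.isUnit_iff_coprime u m).2 hu
  set α : ZMod m → ℕ := fun r => (univ.filter (fun x : Ω => (a x : ZMod m) = r)).card with hα
  -- rewrite the sum
  have h1 : ∑ x : Ω, ∑ y : Ω, (ZMod.stdAddChar ((u : ZMod m) * ((a x : ZMod m) * (a y : ZMod m))) : ℂ) =
      ∑ r : ZMod m, (α r : ℂ) * G r := by
    have h2 : ∀ x : Ω, ∑ y : Ω, (ZMod.stdAddChar ((u : ZMod m) * ((a x : ZMod m) * (a y : ZMod m))) : ℂ) =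
        G (a x) := by
      intro x
      rw [hG]
      refine Finset.sum_congr rfl fun y _ => ?_
      congr 1
      ring
    rw [Finset.sum_congr rfl fun x _ => h2 x]
    rw [← Finset.sum_fiberwise_of_maps_to (s := univ) (t := univ) (g := fun x : Ω => (a x : ZMod m))
      (fun _ _ => Finset.mem_univ _)]
    refine Finset.sum_congr rfl fun r _ => ?_
    rw [Finset.sum_congr rfl (g := fun _ => G r), Finset.sum_const, nsmul_eq_mul]
    intro x hx
    rw [(Finset.mem_filter.1 hx).2]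
  -- second moments
  have h3 : ∑ r : ZMod m, (α r : ℝ) ^ 2 = coll a m := by
    have : coll a m = ∑ r : ZMod m, α r ^ 2 := by
      unfold coll
      rw [Finset.card_eq_sum_card_fiberwise (f := fun z : Ω × Ω => (a z.1 : ZMod m)) (t := univ)
        (fun _ _ => Finset.mem_coe.2 (Finset.mem_univ _))]
      refine Finset.sum_congr rfl fun r _ => ?_
      rw [hα, sq, ← Finset.card_product]
      congr 1
      ext ⟨x, y⟩
      simp only [Finset.mem_filter, Finset.mem_univ, true_and, Finset.mem_product]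
      constructor
      · rintro ⟨h, h'⟩; exact ⟨h', by rw [← h, h']⟩
      · rintro ⟨h, h'⟩; exact ⟨by rw [h, h'], h⟩
    rw [this]
    push_cast
    rfl
  have h4 : ∑ r : ZMod m, ‖G r‖ ^ 2 = (m : ℝ) * coll a m := by
    have key : ∑ r : ZMod m, ((‖G r‖ ^ 2 : ℝ) : ℂ) = (m : ℂ) * coll a m := by
      have h5 : ∀ r : ZMod m, ((‖G r‖ ^ 2 : ℝ) : ℂ) =
          ∑ z : Ω × Ω, ZMod.stdAddChar (r * ((u : ZMod m) * ((a z.1 : ZMod m) - (a z.2 : ZMod m)))) := by
        intro r
        have : ((‖G r‖ ^ 2 : ℝ) : ℂ) = G r * (starRingEnd ℂ) (G r) := by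
          rw [Complex.mul_conj, Complex.normSq_eq_norm_sq]
        rw [this, hG, map_sum, Finset.sum_mul_sum, ← Finset.sum_product']
        refine Finset.sum_congr rfl fun z _ => ?_
        have h6 : (starRingEnd ℂ) (ZMod.stdAddChar (r * ((u : ZMod m) * (a z.2 : ZMod m)))) =
            ZMod.stdAddChar (-(r * ((u : ZMod m) * (a z.2 : ZMod m)))) := by
          rw [AddChar.map_neg_eq_conj]
        rw [h6, ← AddChar.map_add_eq_mul]
        congr 1
        ring
      rw [Finset.sum_congr rfl fun r _ => h5 r, Finset.sum_comm]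
      have h7 : ∀ z : Ω × Ω, ∑ r : ZMod m,
          (ZMod.stdAddChar (r * ((u : ZMod m) * ((a z.1 : ZMod m) - (a z.2 : ZMod m)))) : ℂ) =
          if (a z.1 : ZMod m) = (a z.2 : ZMod m) then (m : ℂ) else 0 := by
        intro z
        rw [AddChar.sum_mulShift _ (ZMod.isPrimitive_stdAddChar m), ZMod.card]
        by_cases h : (a z.1 : ZMod m) = (a z.2 : ZMod m)
        · rw [if_pos h, if_pos (by rw [h]; ring)]
        · rw [if_neg h, if_neg]
          · simp
          · intro h8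
            have h9 := (huu.mul_right_eq_zero).1 h8
            exact h (sub_eq_zero.1 h9)
      rw [Finset.sum_congr rfl fun z _ => h7 z, ← Finset.sum_filter, Finset.sum_const, nsmul_eq_mul,
        mul_comm]
      rfl
    exact_mod_cast key
  rw [h1]
  calc ‖∑ r : ZMod m, (α r : ℂ) * G r‖ ^ 2 ≤ (∑ r : ZMod m, (α r : ℝ) * ‖G r‖) ^ 2 := by
        gcongr
        refine (norm_sum_le _ _).trans (le_of_eq ?_)
        refine Finset.sum_congr rfl fun r _ => ?_
        rw [norm_mul, Complex.norm_natCast]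
    _ ≤ (∑ r : ZMod m, (α r : ℝ) ^ 2) * ∑ r : ZMod m, ‖G r‖ ^ 2 :=
        Finset.sum_mul_sq_le_sq_mul_sq _ _ _
    _ = (m : ℝ) * (coll a m : ℝ) ^ 2 := by rw [h3, h4]; ring

/-- Reduction of the exponential `e(v t / s)` to lowest terms. -/
theorem char_reduce (s g m u t : ℕ) [NeZero s] [NeZero m] (hs : s = g * m) :
    (ZMod.stdAddChar (((g * u : ℕ) : ZMod s) * (t : ZMod s)) : ℂ) =
      ZMod.stdAddChar ((u : ZMod m) * (t : ZMod m)) := by
  have h1 : (((g * u : ℕ) : ZMod s) * (t : ZMod s)) = (((g * u * t : ℕ) : ℤ) : ZMod s) := by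
    push_cast; ring
  have h2 : ((u : ZMod m) * (t : ZMod m)) = (((u * t : ℕ) : ℤ) : ZMod m) := by
    push_cast; ring
  rw [h1, h2, ZMod.stdAddChar_coe, ZMod.stdAddChar_coe]
  congr 1
  have hs0 : (s : ℂ) ≠ 0 := by exact_mod_cast NeZero.ne s
  have hm0 : (m : ℂ) ≠ 0 := by exact_mod_cast NeZero.ne m
  have hsc : (s : ℂ) = g * m := by exact_mod_cast hs
  have hg0 : (g : ℂ) ≠ 0 := by
    intro h; rw [h, zero_mul] at hsc; exact hs0 hsc
  rw [hsc]
  push_cast
  field_simp

/-- The bilinear exponential sum. -/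
noncomputable def bsum (a : Ω → ℕ) (s : ℕ) [NeZero s] (h : ZMod s) : ℂ :=
  ∑ x : Ω, ∑ y : Ω, (ZMod.stdAddChar (h * ((a x : ZMod s) * (a y : ZMod s))) : ℂ)

theorem bsum_bound (a : Ω → ℕ) (s : ℕ) [NeZero s] (h : ZMod s) (N : ℕ)
    (hc : ∀ m : ℕ, m ∣ s → 1 < m → coll a m ^ 8 * m ^ 5 ≤ N ^ 16) (hh : h ≠ 0) :
    ‖bsum a s h‖ ^ 24 ≤ (N : ℝ) ^ 48 * (1 / ((s / Nat.gcd s h.val : ℕ) : ℝ) ^ 3) := by
  have hs0 : 0 < s := Nat.pos_of_ne_zero (NeZero.ne s)
  set v := h.val with hv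
  have hv0 : v ≠ 0 := by
    intro h0
    apply hh
    rwa [hv, ZMod.val_eq_zero] at h0
  have hvs : v < s := ZMod.val_lt h
  set g := Nat.gcd s v with hg
  have hgpos : 0 < g := Nat.gcd_pos_of_pos_left _ hs0
  set m := s / g with hm
  have hsgm : s = g * m := (Nat.mul_div_cancel' (Nat.gcd_dvd_left s v)).symm
  have hm0 : 0 < m := by
    rcases Nat.eq_zero_or_pos m with h0 | h0
    · rw [h0, mul_zero] at hsgm; omega
    · exact h0
  have hm1 : 1 < m := by
    have h1 : g ≤ v := Nat.le_of_dvd (Nat.pos_of_ne_zero hv0) (Nat.gcd_dvd_right s v)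
    by_contra h2
    have : m = 1 := by omega
    rw [this, mul_one] at hsgm
    omega
  have : NeZero m := ⟨hm0.ne'⟩
  set u := v / g with hu
  have hvgu : v = g * u := (Nat.mul_div_cancel' (Nat.gcd_dvd_right s v)).symm
  have hcop : Nat.Coprime u m := by
    have := Nat.coprime_div_gcd_div_gcd (m := s) (n := v) hgpos
    exact this.symm
  have hval : h = ((g * u : ℕ) : ZMod s) := by
    rw [← hvgu, hv, ZMod.natCast_val, ZMod.cast_id]
  have h3 : bsum a s h = ∑ x : Ω, ∑ y : Ω,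
      (ZMod.stdAddChar ((u : ZMod m) * ((a x : ZMod m) * (a y : ZMod m))) : ℂ) := by
    unfold bsum
    refine Finset.sum_congr rfl fun x _ => Finset.sum_congr rfl fun y _ => ?_
    have := char_reduce s g m u (a x * a y) hsgm
    rw [hval]
    push_cast at this ⊢
    exact this
  have h4 := prim_bound a m u hcop
  rw [← h3] at h4
  have h5 := hc m ⟨g, by rw [hsgm]; ring⟩ hm1
  have h5' : (coll a m : ℝ) ^ 8 * (m : ℝ) ^ 5 ≤ (N : ℝ) ^ 16 := by exact_mod_cast h5
  have hmr : (0 : ℝ) < m := by exact_mod_cast hm0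
  calc ‖bsum a s h‖ ^ 24 = (‖bsum a s h‖ ^ 2) ^ 12 := by ring
    _ ≤ ((m : ℝ) * (coll a m : ℝ) ^ 2) ^ 12 := by gcongr
    _ = ((coll a m : ℝ) ^ 8 * (m : ℝ) ^ 5) ^ 3 * (1 / (m : ℝ) ^ 3) := by field_simp
    _ ≤ ((N : ℝ) ^ 16) ^ 3 * (1 / (m : ℝ) ^ 3) := by gcongr
    _ = (N : ℝ) ^ 48 * (1 / (m : ℝ) ^ 3) := by ring

theorem sum_gcd_lt (s : ℕ) [NeZero s] :
    ∑ h ∈ (univ : Finset (ZMod s)).erase 0, (1 / ((s / Nat.gcd s h.val : ℕ) : ℝ) ^ 3) < 1 := by
  classical
  have hs0 : 0 < s := Nat.pos_of_ne_zero (NeZero.ne s)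
  set F : ℕ → ℝ := fun m => 1 / (m : ℝ) ^ 3 with hF
  have hmaps : ∀ h ∈ (univ : Finset (ZMod s)).erase 0, s / Nat.gcd s h.val ∈ Finset.Ioc 1 s := by
    intro h hh
    have hh0 : h ≠ 0 := Finset.ne_of_mem_erase hh
    have hv0 : h.val ≠ 0 := by rwa [Ne, ZMod.val_eq_zero]
    have hvs : h.val < s := ZMod.val_lt h
    have hgpos : 0 < Nat.gcd s h.val := Nat.gcd_pos_of_pos_left _ hs0
    have hgle : Nat.gcd s h.val ≤ h.val := Nat.le_of_dvd (Nat.pos_of_ne_zero hv0) (Nat.gcd_dvd_right _ _)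
    have h1 : s = Nat.gcd s h.val * (s / Nat.gcd s h.val) :=
      (Nat.mul_div_cancel' (Nat.gcd_dvd_left s h.val)).symm
    rw [Finset.mem_Ioc]
    refine ⟨?_, Nat.div_le_self _ _⟩
    by_contra h2
    push Not at h2
    have : Nat.gcd s h.val * (s / Nat.gcd s h.val) ≤ Nat.gcd s h.val * 1 := Nat.mul_le_mul_left _ h2
    omega
  have h1 : ∑ h ∈ (univ : Finset (ZMod s)).erase 0, F (s / Nat.gcd s h.val) =
      ∑ m ∈ Finset.Ioc 1 s, ∑ h ∈ ((univ : Finset (ZMod s)).erase 0).filter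
        (fun h => s / Nat.gcd s h.val = m), F (s / Nat.gcd s h.val) :=
    (Finset.sum_fiberwise_of_maps_to hmaps _).symm
  have h2 : ∀ m ∈ Finset.Ioc 1 s, ∑ h ∈ ((univ : Finset (ZMod s)).erase 0).filter
        (fun h => s / Nat.gcd s h.val = m), F (s / Nat.gcd s h.val) ≤ ((m : ℝ) ^ 2)⁻¹ := by
    intro m hm
    rw [Finset.mem_Ioc] at hm
    rw [Finset.sum_congr rfl (g := fun _ => F m) (fun h hh => by
      rw [(Finset.mem_filter.1 hh).2]), Finset.sum_const, nsmul_eq_mul]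
    have hcard : (((univ : Finset (ZMod s)).erase 0).filter
        (fun h => s / Nat.gcd s h.val = m)).card ≤ m := by
      have hinj : (((univ : Finset (ZMod s)).erase 0).filter
        (fun h => s / Nat.gcd s h.val = m)).card ≤ (Finset.range m).card := by
        apply Finset.card_le_card_of_injOn (fun h => h.val / (s / m))
        · intro h hh
          have hh' := (Finset.mem_filter.1 hh).2
          have hgd : Nat.gcd s h.val ∣ s := Nat.gcd_dvd_left _ _
          have hgpos : 0 < Nat.gcd s h.val := Nat.gcd_pos_of_pos_left _ hs0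
          have h3 : s / m = Nat.gcd s h.val := by
            rw [← hh']; exact Nat.div_div_self hgd hs0.ne'
          rw [Finset.mem_coe, Finset.mem_range, h3, Nat.div_lt_iff_lt_mul hgpos]
          calc h.val < s := ZMod.val_lt h
            _ = m * Nat.gcd s h.val := by
              rw [← hh']; exact (Nat.div_mul_cancel hgd).symm
        · intro h hh h' hh' heq
          have e1 := (Finset.mem_filter.1 (Finset.mem_coe.1 hh)).2
          have e2 := (Finset.mem_filter.1 (Finset.mem_coe.1 hh')).2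
          have g1 : s / m = Nat.gcd s h.val := by
            rw [← e1]; exact Nat.div_div_self (Nat.gcd_dvd_left _ _) hs0.ne'
          have g2 : s / m = Nat.gcd s h'.val := by
            rw [← e2]; exact Nat.div_div_self (Nat.gcd_dvd_left _ _) hs0.ne'
          have d1 : (s / m) ∣ h.val := g1 ▸ Nat.gcd_dvd_right _ _
          have d2 : (s / m) ∣ h'.val := g2 ▸ Nat.gcd_dvd_right _ _
          apply ZMod.val_injective
          change h.val / (s / m) = h'.val / (s / m) at heq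
          rw [← Nat.div_mul_cancel d1, ← Nat.div_mul_cancel d2, heq]
      rwa [Finset.card_range] at hinj
    have hmr : (0 : ℝ) < m := by exact_mod_cast (by omega : 0 < m)
    calc ((((univ : Finset (ZMod s)).erase 0).filter
        (fun h => s / Nat.gcd s h.val = m)).card : ℝ) * F m ≤ (m : ℝ) * F m := by
          apply mul_le_mul_of_nonneg_right
          · exact_mod_cast hcard
          · rw [hF]; positivity
      _ = ((m : ℝ) ^ 2)⁻¹ := by rw [hF]; field_simp
  rw [h1]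
  calc _ ≤ ∑ m ∈ Finset.Ioc 1 s, ((m : ℝ) ^ 2)⁻¹ := Finset.sum_le_sum h2
    _ ≤ ((1 : ℕ) : ℝ)⁻¹ - (s : ℝ)⁻¹ := sum_Ioc_inv_sq_le_sub one_ne_zero hs0
    _ < 1 := by
      have : (0 : ℝ) < (s : ℝ)⁻¹ := by positivity
      push_cast
      linarith

/-- The covering lemma: if the family has few collisions modulo all divisors of `s`, then `s`
divides a sum of twenty-four products. -/
theorem cover_dvd [Nonempty Ω] (a : Ω → ℕ) (s : ℕ) (hs : 0 < s)
    (hc : ∀ m : ℕ, m ∣ s → 1 < m → coll a m ^ 8 * m ^ 5 ≤ (Fintype.card Ω) ^ 16) :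
    ∃ x y : Fin 24 → Ω, s ∣ ∑ j, a (x j) * a (y j) := by
  classical
  have : NeZero s := ⟨hs.ne'⟩
  by_contra hno
  push Not at hno
  set N := Fintype.card Ω with hN
  have hNpos : (0 : ℝ) < N := by exact_mod_cast Fintype.card_pos
  -- total sum vanishes
  have hpow : ∀ h : ZMod s, bsum a s h ^ 24 =
      ∑ z : Fin 24 → Ω × Ω, ZMod.stdAddChar (h * (((∑ j, a (z j).1 * a (z j).2 : ℕ)) : ZMod s)) := by
    intro h
    have h1 : bsum a s h = ∑ w : Ω × Ω, (ZMod.stdAddChar (h * ((a w.1 : ZMod s) * (a w.2 : ZMod s))) : ℂ) := by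
      unfold bsum
      rw [← Finset.univ_product_univ, Finset.sum_product]
    rw [h1]
    have h2 : (∑ w : Ω × Ω, (ZMod.stdAddChar (h * ((a w.1 : ZMod s) * (a w.2 : ZMod s))) : ℂ)) ^ 24 =
        ∏ _j : Fin 24, ∑ w : Ω × Ω, (ZMod.stdAddChar (h * ((a w.1 : ZMod s) * (a w.2 : ZMod s))) : ℂ) := by
      rw [Finset.prod_const, Finset.card_univ, Fintype.card_fin]
    rw [h2, Finset.prod_univ_sum, Fintype.piFinset_univ]
    refine Finset.sum_congr rfl fun z _ => ?_
    have h3 : ∀ (f : Fin 24 → ZMod s), (ZMod.stdAddChar (∑ j, f j) : ℂ) = ∏ j, ZMod.stdAddChar (f j) := by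
      intro f
      have h4 : ∀ T : Finset (Fin 24), (ZMod.stdAddChar (∑ j ∈ T, f j) : ℂ) = ∏ j ∈ T, ZMod.stdAddChar (f j) := by
        intro T
        induction T using Finset.induction_on with
        | empty => simp
        | insert b T hb ih => rw [Finset.sum_insert hb, Finset.prod_insert hb, AddChar.map_add_eq_mul, ih]
      exact h4 univ
    rw [← h3]
    congr 1
    push_cast
    rw [Finset.mul_sum]
  have hzero : ∑ h : ZMod s, bsum a s h ^ 24 = 0 := by
    rw [Finset.sum_congr rfl fun h _ => hpow h, Finset.sum_comm]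
    refine Finset.sum_eq_zero fun z _ => ?_
    rw [AddChar.sum_mulShift _ (ZMod.isPrimitive_stdAddChar s), if_neg, Nat.cast_zero]
    rw [ZMod.natCast_eq_zero_iff]
    exact hno (fun j => (z j).1) (fun j => (z j).2)
  rw [← Finset.add_sum_erase _ _ (Finset.mem_univ (0 : ZMod s))] at hzero
  have h0 : bsum a s 0 = (N : ℂ) ^ 2 := by
    unfold bsum
    simp [sq, hN]
  rw [h0] at hzero
  have h1 : (N : ℝ) ^ 48 ≤ ∑ h ∈ univ.erase (0 : ZMod s), ‖bsum a s h‖ ^ 24 := by
    have h2 : ∑ h ∈ univ.erase (0 : ZMod s), bsum a s h ^ 24 = - ((N : ℂ) ^ 2) ^ 24 := by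
      linear_combination hzero
    calc (N : ℝ) ^ 48 = ‖- ((N : ℂ) ^ 2) ^ 24‖ := by
          rw [norm_neg, norm_pow, norm_pow, Complex.norm_natCast, ← pow_mul]
      _ = ‖∑ h ∈ univ.erase (0 : ZMod s), bsum a s h ^ 24‖ := by rw [h2]
      _ ≤ ∑ h ∈ univ.erase (0 : ZMod s), ‖bsum a s h ^ 24‖ := norm_sum_le _ _
      _ = ∑ h ∈ univ.erase (0 : ZMod s), ‖bsum a s h‖ ^ 24 := by simp only [norm_pow]
  have h3 : ∑ h ∈ univ.erase (0 : ZMod s), ‖bsum a s h‖ ^ 24 ≤
      (N : ℝ) ^ 48 * ∑ h ∈ univ.erase (0 : ZMod s), (1 / ((s / Nat.gcd s h.val : ℕ) : ℝ) ^ 3) := by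
    rw [Finset.mul_sum]
    exact Finset.sum_le_sum fun h hh => bsum_bound a s h N hc (Finset.ne_of_mem_erase hh)
  have h4 := sum_gcd_lt s
  have h5 : (0 : ℝ) < (N : ℝ) ^ 48 := by positivity
  nlinarith

end Vale.Agent.Lib.P012F
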