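import Vale.Agent.Lib.P012F.UF

namespace Vale.Agent.Lib.P012F

open Finset

/-- Greedy steps with control of the denominator. -/
theorem greedy (M : ℕ) (hM : 0 < M) : ∀ J i a b : ℕ, 0 < b → a * 2 ^ (2 ^ i) ≤ b → M ≤ 2 ^ (2 ^ (i + J)) →
    ∃ (y : ℚ) (a' b' : ℕ), UF J y ∧ 0 < b' ∧ (a : ℚ) / b = y + (a' : ℚ) / b' ∧ a' * M ≤ b' ∧
      b' ≤ max b (2 * M ^ 2 * a) := by
  intro J
  induction J with
  | zero =>
    intro i a b hb hab hMi
    refine ⟨0, a, b, UF.zero _, hb, by simp, ?_, le_max_left _ _⟩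
    calc a * M ≤ a * 2 ^ (2 ^ i) := Nat.mul_le_mul_left _ (by simpa using hMi)
      _ ≤ b := hab
  | succ J ih =>
    intro i a b hb hab hMi
    by_cases hstop : a * M ≤ b
    · exact ⟨0, a, b, UF.zero _, hb, by simp, hstop, le_max_left _ _⟩
    · push Not at hstop
      have ha : 0 < a := by
        rcases Nat.eq_zero_or_pos a with h | h
        · rw [h, zero_mul] at hstop; omega
        · exact h
      -- n = ceil (b / a)
      set n := (b + a - 1) / a with hn
      have hn1 : b ≤ a * n := by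
        have h1 := Nat.div_add_mod (b + a - 1) a
        have h2 := Nat.mod_lt (b + a - 1) ha
        rw [← hn] at h1
        omega
      have hn2 : a * n < b + a := by
        have h1 := Nat.mul_div_le (b + a - 1) a
        rw [← hn] at h1
        omega
      have hnpos : 0 < n := by
        rcases Nat.eq_zero_or_pos n with h | h
        · rw [h, mul_zero] at hn1; omega
        · exact h
      have hab' : a ≤ b := by
        calc a = a * 1 := (mul_one a).symm
          _ ≤ a * 2 ^ (2 ^ i) := Nat.mul_le_mul_left _ Nat.one_le_two_pow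
          _ ≤ b := hab
      set a₁ := a * n - b with ha₁
      have ha₁lt : a₁ < a := by omega
      have ha₁e : a₁ + b = a * n := by omega
      have hb₁ : 0 < b * n := Nat.mul_pos hb hnpos
      have hnext : a₁ * 2 ^ (2 ^ (i + 1)) ≤ b * n := by
        have h1 : 2 ^ (2 ^ (i + 1)) = 2 ^ (2 ^ i) * 2 ^ (2 ^ i) := by
          rw [← pow_add]; congr 1; rw [pow_succ]; ring
        rw [h1]
        have h2 : a * (2 ^ (2 ^ i) * 2 ^ (2 ^ i)) * a ≤ b * b := by
          calc a * (2 ^ (2 ^ i) * 2 ^ (2 ^ i)) * a = (a * 2 ^ (2 ^ i)) * (a * 2 ^ (2 ^ i)) := by ring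
            _ ≤ b * b := Nat.mul_le_mul hab hab
        have h3 : b * b ≤ b * n * a := by nlinarith
        have h4 : a * (2 ^ (2 ^ i) * 2 ^ (2 ^ i)) * a ≤ b * n * a := h2.trans h3
        have h5 := Nat.le_of_mul_le_mul_right h4 ha
        exact (Nat.mul_le_mul_right _ ha₁lt.le).trans h5
      obtain ⟨y, a', b', hy, hb', heq, hstop', hbound⟩ := ih (i + 1) a₁ (b * n) hb₁ hnext (by
        rw [show i + 1 + J = i + (J + 1) by ring]; exact hMi)
      refine ⟨1 / n + y, a', b', ?_, hb', ?_, hstop', ?_⟩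
      · exact ((UF.one_div n hnpos).add hy).mono (by omega)
      · have hbq : (b : ℚ) ≠ 0 := by exact_mod_cast hb.ne'
        have hnq : (n : ℚ) ≠ 0 := by exact_mod_cast hnpos.ne'
        have h6 : (a₁ : ℚ) + b = a * n := by exact_mod_cast ha₁e
        have h7 : (a : ℚ) / b = 1 / n + (a₁ : ℚ) / (b * n : ℕ) := by
          push_cast
          field_simp
          linarith
        rw [h7, heq]
        ring
      · refine hbound.trans ?_
        refine max_le ?_ ?_
        · refine le_trans ?_ (le_max_right _ _)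
          -- b * n ≤ 2 M^2 a
          have h8 : b * n * a ≤ 2 * M ^ 2 * a * a := by
            have h9 : a * n ≤ 2 * b := by omega
            have h10 : b * (a * n) ≤ b * (2 * b) := Nat.mul_le_mul_left _ h9
            have h11 : b * b ≤ (a * M) * (a * M) := Nat.mul_le_mul hstop.le hstop.le
            nlinarith
          exact Nat.le_of_mul_le_mul_right h8 ha
        · refine le_trans ?_ (le_max_right _ _)
          exact Nat.mul_le_mul_left _ ha₁lt.le

/-- Base `2 ^ τ` digits. -/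
theorem digits (M t τ : ℕ) (hcheap : ∀ n : ℕ, n < 2 ^ τ → UF t ((n : ℚ) / M)) : ∀ D y : ℕ, y < 2 ^ (τ * D) →
    UF (t * D) ((y : ℚ) / ((M * 2 ^ (τ * D) : ℕ) : ℚ)) := by
  intro D
  induction D with
  | zero =>
    intro y hy
    have : y = 0 := by simpa using hy
    subst this
    simpa using UF.zero 0
  | succ D ih =>
    intro y hy
    set u := y / 2 ^ τ with hu
    set v := y % 2 ^ τ with hv
    have hv' : v < 2 ^ τ := Nat.mod_lt _ (by positivity)
    have hyuv : y = 2 ^ τ * u + v := (Nat.div_add_mod _ _).symm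
    have hu' : u < 2 ^ (τ * D) := by
      rw [hu, Nat.div_lt_iff_lt_mul (by positivity), ← pow_add]
      rw [mul_add, mul_one] at hy
      exact hy
    have h1 := ih u hu'
    have h2 := (hcheap v hv').div (2 ^ (τ * (D + 1))) (by positivity)
    have h3 : (y : ℚ) / ((M * 2 ^ (τ * (D + 1)) : ℕ) : ℚ) =
        (u : ℚ) / ((M * 2 ^ (τ * D) : ℕ) : ℚ) + (v : ℚ) / M / ((2 ^ (τ * (D + 1)) : ℕ) : ℚ) := by
      rw [hyuv]
      rcases Nat.eq_zero_or_pos M with h | h
      · subst h; simp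
      · have hM' : (M : ℚ) ≠ 0 := by exact_mod_cast h.ne'
        push_cast
        rw [mul_add, mul_one, pow_add]
        field_simp
    rw [h3]
    exact (h1.add h2).mono (by ring_nf; rfl)

theorem assemble (M t τ D J a b : ℕ) (hM : 0 < M) (hcheap : ∀ n : ℕ, n < 2 ^ τ → UF t ((n : ℚ) / M))
    (hab : a < b) (hJ : 2 * M ≤ 2 ^ (2 ^ J)) (hD : 16 * M ^ 2 * b < 2 ^ (τ * D)) :
    UF (J + 1 + 2 * (t * D)) ((a : ℚ) / b) := by
  have hb : 0 < b := by omega
  -- first step: make the fraction at most one half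
  have first : ∃ (y : ℚ) (a₁ b₁ : ℕ), UF 1 y ∧ 0 < b₁ ∧ (a : ℚ) / b = y + (a₁ : ℚ) / b₁ ∧
      a₁ * 2 ≤ b₁ ∧ b₁ ≤ 2 * b ∧ a₁ ≤ b := by
    by_cases h : a * 2 ≤ b
    · exact ⟨0, a, b, UF.zero _, hb, by simp, h, by omega, by omega⟩
    · refine ⟨1 / (2 : ℕ), 2 * a - b, 2 * b, UF.one_div 2 (by norm_num), by omega, ?_, by omega,
        le_rfl, by omega⟩
      have hbq : (b : ℚ) ≠ 0 := by exact_mod_cast hb.ne'
      rw [Nat.cast_sub (by omega)]
      push_cast
      field_simp
      ring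
  obtain ⟨y₁, a₁, b₁, hy₁, hb₁, heq₁, hhalf, hb₁le, ha₁le⟩ := first
  obtain ⟨y₂, a', b', hy₂, hb', heq₂, hstop, hbound⟩ := greedy (2 * M) (by omega) J 0 a₁ b₁ hb₁
    (by simpa using hhalf) (by simpa using hJ)
  have hb'le : b' ≤ 8 * M ^ 2 * b := by
    refine hbound.trans (max_le ?_ ?_)
    · refine hb₁le.trans ?_
      have : 1 ≤ M ^ 2 := Nat.one_le_pow _ _ hM
      nlinarith
    · calc 2 * (2 * M) ^ 2 * a₁ ≤ 2 * (2 * M) ^ 2 * b := Nat.mul_le_mul_left _ ha₁le
        _ = 8 * M ^ 2 * b := by ring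
  have hb'lt : b' < 2 ^ (τ * D) := by
    refine lt_of_le_of_lt hb'le (lt_of_le_of_lt ?_ hD)
    gcongr
    norm_num
  set N := M * 2 ^ (τ * D) with hN
  have hNpos : 0 < N := by positivity
  set q := a' * N / b' with hq
  set r := a' * N % b' with hr
  have hqr : a' * N = b' * q + r := (Nat.div_add_mod _ _).symm
  have hr' : r < 2 ^ (τ * D) := (Nat.mod_lt _ hb').trans hb'lt
  have hq' : q < 2 ^ (τ * D) := by
    rw [hq, Nat.div_lt_iff_lt_mul hb']
    have h1 : a' * N * 2 ≤ b' * 2 ^ (τ * D) := by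
      calc a' * N * 2 = a' * (2 * M) * 2 ^ (τ * D) := by rw [hN]; ring
        _ ≤ b' * 2 ^ (τ * D) := Nat.mul_le_mul_right _ hstop
    have h2 : 0 < b' * 2 ^ (τ * D) := by positivity
    rw [mul_comm (2 ^ (τ * D))]
    omega
  have hUq := digits M t τ hcheap D q hq'
  have hUr := (digits M t τ hcheap D r hr').div b' hb'
  have heq₃ : (a' : ℚ) / b' = (q : ℚ) / (N : ℕ) + (r : ℚ) / (N : ℕ) / (b' : ℕ) := by
    have hbq : (b' : ℚ) ≠ 0 := by exact_mod_cast hb'.ne'
    have hNq : (N : ℚ) ≠ 0 := by exact_mod_cast hNpos.ne'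
    have h3 : (a' : ℚ) * N = b' * q + r := by exact_mod_cast hqr
    field_simp
    linarith
  rw [heq₁, heq₂, heq₃]
  refine (hy₁.add (hy₂.add (hUq.add hUr))).mono ?_
  ring_nf
  rfl

end Vale.Agent.Lib.P012F
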