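import Vale.Agent.Lib.P012F.Split
import Vale.Agent.Lib.P012F.Greedy
import Vale.Agent.Lib.P012.Final

namespace Vale.Agent.Lib.P012F

open Finset

theorem UF.of_good {k : ℕ} (p : Fin k → ℕ) (hp : ∀ i, (p i).Prime) (s : ℕ) (hs : GoodNum p s) :
    UF 24 ((s : ℚ) / (((∏ i, p i) ^ 2 : ℕ) : ℚ)) := by
  obtain ⟨x, y, hxy⟩ := cover_dvd (av p) s hs.1 (by
    have hc : Fintype.card (Finset (Fin k)) = 2 ^ k := by
      rw [Fintype.card_finset, Fintype.card_fin]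
    rw [hc]
    exact hs.2)
  have hMpos : 0 < (∏ i, p i) ^ 2 := pow_pos (Finset.prod_pos fun i _ => (hp i).pos) 2
  have hdvd : ∀ I : Finset (Fin k), av p I ∣ ∏ i, p i := fun I =>
    Finset.prod_dvd_prod_of_subset _ _ _ (Finset.subset_univ _)
  have := UF.of_dvd_sum (univ : Finset (Fin 24)) ⟨0, Finset.mem_univ _⟩
    (fun j => av p (x j) * av p (y j)) ((∏ i, p i) ^ 2) s hMpos hs.1 (fun j _ => by
      rw [sq]; exact mul_dvd_mul (hdvd _) (hdvd _)) hxy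
  simpa using this

theorem cheap : ∃ κ₀ : ℕ, 64 ≤ κ₀ ∧ ∀ κ : ℕ, κ₀ ≤ κ → ∃ M : ℕ, 0 < M ∧ M ≤ 2 ^ (256 * κ * 2 ^ κ) ∧
    ∀ n : ℕ, n < 2 ^ (2 ^ κ) → UF 49 ((n : ℚ) / M) := by
  obtain ⟨κ₀, hκ₀, hmain⟩ := exists_p (1 / 16) (by norm_num)
  refine ⟨κ₀, hκ₀, fun κ hκ => ?_⟩
  obtain ⟨p, hp, hsum⟩ := hmain κ hκ
  have hpi : ∀ i, (p i).Prime := fun i => (mem_pl (hp i)).1
  set M := (∏ i, p i) ^ 2 with hM
  have hMpos : 0 < M := pow_pos (Finset.prod_pos fun i _ => (hpi i).pos) 2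
  have hτ : 2 ≤ 2 ^ κ := by
    calc 2 = 2 ^ 1 := rfl
      _ ≤ 2 ^ κ := Nat.pow_le_pow_right (by norm_num) (by omega)
  refine ⟨M, hMpos, ?_, ?_⟩
  · have h1 : ∏ i, p i ≤ (2 ^ (16 * κ)) ^ (8 * 2 ^ κ) := by
      calc ∏ i, p i ≤ ∏ _i : Fin (8 * 2 ^ κ), 2 ^ (16 * κ) :=
            Finset.prod_le_prod' fun i _ => (mem_pl (hp i)).2.2.le
        _ = _ := by rw [Finset.prod_const, Finset.card_univ, Fintype.card_fin]
    calc M ≤ ((2 ^ (16 * κ)) ^ (8 * 2 ^ κ)) ^ 2 := Nat.pow_le_pow_left h1 2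
      _ = 2 ^ (256 * κ * 2 ^ κ) := by rw [← pow_mul, ← pow_mul]; congr 1; ring
  · -- numbers in the top dyadic range
    have htop : ∀ n : ℕ, 2 ^ (2 ^ κ - 1) ≤ n → n < 2 ^ (2 ^ κ) → UF 49 ((n : ℚ) / M) := by
      intro n hn1 hn2
      have heven : ∀ n : ℕ, 2 ^ (2 ^ κ - 1) ≤ n → n < 2 ^ (2 ^ κ) → Even n → UF 48 ((n : ℚ) / M) := by
        intro n hn1 hn2 hn
        obtain ⟨s₁, s₂, hss, h1, h2⟩ := exists_split κ (by omega) p hp hsum n hn1 hn2 hn
        have h3 := (UF.of_good p hpi s₁ h1).add (UF.of_good p hpi s₂ h2)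
        rw [← add_div] at h3
        have h4 : (s₁ : ℚ) + s₂ = n := by exact_mod_cast hss
        rw [h4] at h3
        exact h3
      rcases Nat.even_or_odd n with he | ho
      · exact (heven n hn1 hn2 he).mono (by norm_num)
      · have hpe : Even (2 ^ (2 ^ κ - 1)) := by
          rw [Nat.even_pow]; exact ⟨even_two, by omega⟩
        have hne : 2 ^ (2 ^ κ - 1) ≠ n := by
          intro h
          rw [← Nat.not_even_iff_odd] at ho
          exact ho (h ▸ hpe)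
        have h1 : 1 ≤ n := le_trans Nat.one_le_two_pow hn1
        have h2 := heven (n - 1) (by omega) (by omega) (by
          obtain ⟨m, hm⟩ := ho
          exact ⟨m, by omega⟩)
        have h3 := h2.add (UF.one_div M hMpos)
        have h4 : ((n - 1 : ℕ) : ℚ) / M + 1 / M = (n : ℚ) / M := by
          rw [Nat.cast_sub h1, ← add_div]
          push_cast
          ring_nf
        rw [h4] at h3
        exact h3
    intro n hn
    rcases Nat.eq_zero_or_pos n with rfl | hn0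
    · simpa using UF.zero 49
    · set l := Nat.log 2 n with hl
      have hl1 : 2 ^ l ≤ n := Nat.pow_log_le_self 2 hn0.ne'
      have hl2 : n < 2 ^ (l + 1) := Nat.lt_pow_succ_log_self (by norm_num) n
      have hl3 : l < 2 ^ κ := by
        have : 2 ^ l < 2 ^ (2 ^ κ) := lt_of_le_of_lt hl1 hn
        exact (Nat.pow_lt_pow_iff_right (by norm_num : 1 < 2)).1 this
      set e := 2 ^ κ - 1 - l with he
      have hee : l + e = 2 ^ κ - 1 := by omega
      have h1 := htop (n * 2 ^ e) (by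
        rw [← hee, pow_add]; exact Nat.mul_le_mul_right _ hl1) (by
        have : 2 ^ (2 ^ κ) = 2 ^ (l + 1) * 2 ^ e := by rw [← pow_add]; congr 1; omega
        rw [this]
        exact Nat.mul_lt_mul_of_pos_right hl2 (by positivity))
      have h2 := h1.div (2 ^ e) (by positivity)
      have h3 : ((n * 2 ^ e : ℕ) : ℚ) / M / ((2 ^ e : ℕ) : ℚ) = (n : ℚ) / M := by
        push_cast
        field_simp
      rwa [h3] at h2

theorem main : ∃ C : ℝ, ∀ b : ℕ, 3 ≤ b → ∀ a : ℕ, 1 ≤ a → a < b →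
    ∃ s : Finset ℕ, (∀ n ∈ s, 2 ≤ n) ∧ (s.card : ℝ) ≤ C * Real.log (Real.log b) ∧
      ∑ n ∈ s, (1 : ℚ) / n = a / b := by
  obtain ⟨κ₀, hκ₀, hcheap⟩ := cheap
  have hl3 : (1 : ℝ) < Real.log 3 := by
    rw [Real.lt_log_iff_exp_lt (by norm_num)]
    exact Real.exp_one_lt_three
  set L₀ := Real.log (Real.log 3) with hL₀
  have hL₀pos : 0 < L₀ := Real.log_pos hl3
  refine ⟨60000 * (2 + (4 + κ₀) / L₀), fun b hb a ha hab => ?_⟩
  have hb' : (3 : ℝ) ≤ b := by exact_mod_cast hb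
  set L := Real.log (Real.log b) with hL
  have hLL : L₀ ≤ L := Real.log_le_log (by linarith) (Real.log_le_log (by norm_num) hb')
  have hLpos : 0 < L := lt_of_lt_of_le hL₀pos hLL
  set c := Nat.clog 2 (Nat.clog 2 b) with hc
  set κ := c + κ₀ with hκ
  obtain ⟨M, hM0, hM, hch⟩ := hcheap κ (by omega)
  have hbκ : b ≤ 2 ^ (2 ^ κ) := by
    have h1 : b ≤ 2 ^ Nat.clog 2 b := Nat.le_pow_clog (by norm_num) b
    have h2 : Nat.clog 2 b ≤ 2 ^ c := Nat.le_pow_clog (by norm_num) _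
    have h3 : (2 : ℕ) ^ c ≤ 2 ^ κ := Nat.pow_le_pow_right (by norm_num) (by omega)
    exact h1.trans (Nat.pow_le_pow_right (by norm_num) (h2.trans h3))
  have hκ64 : 64 ≤ κ := by omega
  have hκlt : κ < 2 ^ κ := Nat.lt_two_pow_self
  have hpos : 0 < 2 ^ κ := by positivity
  have hUF := assemble M 49 (2 ^ κ) (512 * κ + 6) (2 * κ + 10) a b hM0 hch hab (by
      calc 2 * M ≤ 2 * 2 ^ (256 * κ * 2 ^ κ) := Nat.mul_le_mul_left _ hM
        _ = 2 ^ (256 * κ * 2 ^ κ + 1) := by rw [pow_succ]; ring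
        _ ≤ 2 ^ (2 ^ (2 * κ + 10)) := by
          apply Nat.pow_le_pow_right (by norm_num)
          have h1 : 2 ^ (2 * κ + 10) = 1024 * (2 ^ κ * 2 ^ κ) := by
            rw [← pow_add, show (1024 : ℕ) = 2 ^ 10 by norm_num, ← pow_add]; congr 1; ring
          rw [h1]
          have h2 : κ * 2 ^ κ ≤ 2 ^ κ * 2 ^ κ := Nat.mul_le_mul_right _ hκlt.le
          nlinarith) (by
      calc 16 * M ^ 2 * b ≤ 16 * (2 ^ (256 * κ * 2 ^ κ)) ^ 2 * 2 ^ (2 ^ κ) := by gcongr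
        _ = 2 ^ (4 + 512 * κ * 2 ^ κ + 2 ^ κ) := by
          rw [pow_add, pow_add, ← pow_mul]
          congr 2
          ring
        _ < 2 ^ (2 ^ κ * (512 * κ + 6)) := by
          apply Nat.pow_lt_pow_right (by norm_num)
          nlinarith)
  have hx : (a : ℚ) / b < 1 := by
    rw [div_lt_one (by exact_mod_cast (by omega : 0 < b))]
    exact_mod_cast hab
  obtain ⟨s, hs1, hs2, hs3⟩ := hUF.distinct hx
  refine ⟨s, hs1, ?_, hs3⟩
  have hcount : s.card ≤ 60000 * κ := by omega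
  have hcr : (c : ℝ) ≤ 2 * L + 4 := P012.clog_bound b hb
  have hκr : (κ : ℝ) = c + κ₀ := by rw [hκ]; push_cast; ring
  have h4 : (4 + κ₀ : ℝ) ≤ (4 + κ₀) / L₀ * L := by
    rw [div_mul_eq_mul_div, le_div_iff₀ hL₀pos]
    have : (0 : ℝ) ≤ 4 + κ₀ := by positivity
    nlinarith
  calc (s.card : ℝ) ≤ 60000 * κ := by exact_mod_cast hcount
    _ = 60000 * (c + κ₀) := by rw [hκr]
    _ ≤ 60000 * (2 * L + 4 + κ₀) := by linarith
    _ ≤ 60000 * (2 * L + (4 + κ₀) / L₀ * L) := by linarith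
    _ = _ := by ring

end Vale.Agent.Lib.P012F
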