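import Vale.Agent.Lib.P012F.Exists

namespace Vale.Agent.Lib.P012F

open Finset

theorem ap_count (m W L : ℕ) (hm : 0 < m) (hcop : Nat.Coprime W m) (c : ZMod m) (T : Finset ℕ)
    (hT : ∀ j ∈ T, j ≤ L ∧ (j : ZMod m) * (W : ZMod m) = c) : T.card ≤ L / m + 1 := by
  rcases T.eq_empty_or_nonempty with rfl | ⟨j₀, hj₀⟩
  · simp
  · refine card_residue m L hm T j₀ fun j hj => ⟨(hT j hj).1, ?_⟩
    have h1 := (hT j hj).2
    rw [← (hT j₀ hj₀).2] at h1
    exact ((ZMod.isUnit_iff_coprime W m).2 hcop).mul_right_cancel h1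

/-- A residue class avoiding `0` and `n` modulo all small primes. -/
theorem exists_residue (X n : ℕ) (hn : Even n) : ∃ W ρ : ℕ, 0 < W ∧ W ≤ 4 ^ X ∧ ρ < W ∧
    (∀ q, q.Prime → q ∣ W → q ≤ X) ∧
    ∀ q, q.Prime → q ≤ X → q ∣ W ∧ (ρ : ZMod q) ≠ 0 ∧ (ρ : ZMod q) ≠ (n : ZMod q) := by
  classical
  set Q := (Finset.range (X + 1)).filter Nat.Prime with hQ
  set W₁ := ∏ q ∈ Q.filter (fun q => q ∣ n), q with hW₁
  set W₂ := ∏ q ∈ Q.filter (fun q => ¬ q ∣ n), q with hW₂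
  have hprod : W₁ * W₂ = ∏ q ∈ Q, q := Finset.prod_filter_mul_prod_filter_not _ _ _
  have hQprime : ∀ q ∈ Q, q.Prime := fun q hq => (Finset.mem_filter.1 hq).2
  have hcop : Nat.Coprime W₁ W₂ := by
    refine Nat.Coprime.prod_left fun q hq => Nat.Coprime.prod_right fun r hr => ?_
    rw [Finset.mem_filter] at hq hr
    rw [Nat.coprime_primes (hQprime q hq.1) (hQprime r hr.1)]
    rintro rfl
    exact hr.2 hq.2
  have hWpos : 0 < W₁ * W₂ := by
    rw [hprod]; exact Finset.prod_pos fun q hq => (hQprime q hq).pos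
  obtain ⟨ρ, hρ1, hρ2⟩ := Nat.chineseRemainder hcop 1 (2 * n)
  refine ⟨W₁ * W₂, ρ % (W₁ * W₂), hWpos, ?_, Nat.mod_lt _ hWpos, ?_, ?_⟩
  · rw [hprod]
    exact primorial_le_four_pow X
  · intro q hq hqd
    rw [hprod] at hqd
    obtain ⟨r, hr, hqr⟩ := (hq.prime.dvd_finsetProd_iff _).1 hqd
    have : q = r := (Nat.prime_dvd_prime_iff_eq hq (hQprime r hr)).1 hqr
    rw [hQ, Finset.mem_filter, Finset.mem_range] at hr
    omega
  · intro q hq hqX
    have hqQ : q ∈ Q := by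
      rw [hQ, Finset.mem_filter, Finset.mem_range]
      exact ⟨by omega, hq⟩
    have hqW : q ∣ W₁ * W₂ := by rw [hprod]; exact Finset.dvd_prod_of_mem _ hqQ
    have hcast : ((ρ % (W₁ * W₂) : ℕ) : ZMod q) = (ρ : ZMod q) := by
      rw [ZMod.natCast_eq_natCast_iff]
      exact (Nat.mod_modEq ρ (W₁ * W₂)).of_dvd hqW
    have : Fact q.Prime := ⟨hq⟩
    refine ⟨hqW, ?_⟩
    rw [hcast]
    by_cases hqn : q ∣ n
    · have hq1 : q ∣ W₁ := Finset.dvd_prod_of_mem _ (Finset.mem_filter.2 ⟨hqQ, hqn⟩)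
      have h1 : (ρ : ZMod q) = 1 := by
        have := (ZMod.natCast_eq_natCast_iff ρ 1 q).2 (hρ1.of_dvd hq1)
        simpa using this
      have h2 : (n : ZMod q) = 0 := (ZMod.natCast_eq_zero_iff n q).2 hqn
      rw [h1, h2]
      exact ⟨one_ne_zero, one_ne_zero⟩
    · have hq2 : q ∣ W₂ := Finset.dvd_prod_of_mem _ (Finset.mem_filter.2 ⟨hqQ, hqn⟩)
      have h1 : (ρ : ZMod q) = 2 * n := by
        have := (ZMod.natCast_eq_natCast_iff ρ (2 * n) q).2 (hρ2.of_dvd hq2)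
        simpa using this
      have h2 : (n : ZMod q) ≠ 0 := by
        rwa [Ne, ZMod.natCast_eq_zero_iff]
      have h3 : (2 : ZMod q) ≠ 0 := by
        intro h4
        have h5 : ((2 : ℕ) : ZMod q) = 0 := by exact_mod_cast h4
        rw [ZMod.natCast_eq_zero_iff] at h5
        have h6 := (Nat.prime_dvd_prime_iff_eq hq Nat.prime_two).1 h5
        rw [h6] at hqn
        exact hqn hn.two_dvd
      rw [h1]
      refine ⟨mul_ne_zero h3 h2, ?_⟩
      intro h4
      apply h2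
      linear_combination h4

/-- The number `s` is good for the family `p`. -/
def GoodNum {k : ℕ} (p : Fin k → ℕ) (s : ℕ) : Prop :=
  0 < s ∧ ∀ m : ℕ, m ∣ s → 1 < m → coll (av p) m ^ 8 * m ^ 5 ≤ (2 ^ k) ^ 16

theorem good_of_avoid {k : ℕ} (p : Fin k → ℕ) (hp : ∀ i, (p i).Prime) (X S W s : ℕ) (hs : 0 < s)
    (hsS : s ≤ S) (hW : ∀ q, q.Prime → q ∣ W → q ≤ X) (hsW : ∀ q, q.Prime → q ≤ X → ¬ q ∣ s)
    (hps : ∀ i, ¬ p i ∣ s)
    (hbad : ∀ m ∈ (Finset.Icc X S).filter (fun m => BadMod p m), Nat.Coprime W m → ¬ m ∣ s) :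
    GoodNum p s := by
  refine ⟨hs, fun m hms hm1 => ?_⟩
  by_contra hcon
  push Not at hcon
  have hbm : BadMod p m := by
    refine ⟨fun i => ?_, hcon⟩
    rw [(hp i).coprime_iff_not_dvd]
    exact fun h => hps i (h.trans hms)
  have hmX : ∀ q, q.Prime → q ∣ m → X < q := by
    intro q hq hqm
    by_contra h
    push Not at h
    exact hsW q hq h (hqm.trans hms)
  have hm : X ≤ m := by
    have h1 := hmX m.minFac (Nat.minFac_prime (by omega)) (Nat.minFac_dvd m)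
    have h2 := Nat.minFac_le (n := m) (by omega)
    omega
  have hcop : Nat.Coprime W m := by
    refine Nat.Coprime.symm (Nat.coprime_of_dvd fun q hq hqm hqW => ?_)
    have h1 := hmX q hq hqm
    have h2 := hW q hq hqW
    omega
  exact hbad m (Finset.mem_filter.2 ⟨Finset.mem_Icc.2 ⟨hm, (Nat.le_of_dvd hs hms).trans hsS⟩, hbm⟩)
    hcop hms

end Vale.Agent.Lib.P012F
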