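import Vale.Agent.Lib.P012F.Sieve

namespace Vale.Agent.Lib.P012F

open Finset

theorem card_E (m W ρ n L : ℕ) (hm : 0 < m) (hcop : Nat.Coprime W m)
    (hlt : ∀ j < L, ρ + j * W < n) :
    (((Finset.range L).filter (fun j => m ∣ ρ + j * W ∨ m ∣ n - (ρ + j * W))).card : ℝ) ≤
      2 * ((L : ℝ) / m + 1) := by
  have h0 : ((L / m : ℕ) : ℝ) ≤ (L : ℝ) / m := Nat.cast_div_le
  have h1 : ((Finset.range L).filter (fun j => m ∣ ρ + j * W)).card ≤ L / m + 1 := by
    refine ap_count m W L hm hcop (-(ρ : ZMod m)) _ fun j hj => ?_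
    rw [Finset.mem_filter, Finset.mem_range] at hj
    refine ⟨hj.1.le, ?_⟩
    have h2 := (ZMod.natCast_eq_zero_iff _ m).2 hj.2
    push_cast at h2
    linear_combination h2
  have h2 : ((Finset.range L).filter (fun j => m ∣ n - (ρ + j * W))).card ≤ L / m + 1 := by
    refine ap_count m W L hm hcop ((n : ZMod m) - (ρ : ZMod m)) _ fun j hj => ?_
    rw [Finset.mem_filter, Finset.mem_range] at hj
    refine ⟨hj.1.le, ?_⟩
    have h2 := (ZMod.natCast_eq_zero_iff _ m).2 hj.2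
    rw [Nat.cast_sub (hlt j hj.1).le] at h2
    push_cast at h2
    linear_combination -h2
  have h3 : ((Finset.range L).filter (fun j => m ∣ ρ + j * W ∨ m ∣ n - (ρ + j * W))).card ≤
      2 * (L / m + 1) := by
    rw [Finset.filter_or]
    refine (Finset.card_union_le _ _).trans ?_
    omega
  calc (((Finset.range L).filter (fun j => m ∣ ρ + j * W ∨ m ∣ n - (ρ + j * W))).card : ℝ)
      ≤ ((2 * (L / m + 1) : ℕ) : ℝ) := by exact_mod_cast h3
    _ = 2 * (((L / m : ℕ) : ℝ) + 1) := by push_cast; ring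
    _ ≤ _ := by gcongr

theorem rt_S (κ : ℕ) (hκ : 5 ≤ κ) : rt (2 ^ (2 ^ κ)) = 2 ^ (2 ^ (κ - 5)) := by
  have h1 := rt_pow (2 ^ (2 ^ κ))
  have h2 : ((2 : ℝ) ^ (2 ^ (κ - 5))) ^ 32 = ((2 ^ (2 ^ κ) : ℕ) : ℝ) := by
    push_cast
    rw [← pow_mul]
    congr 1
    rw [show (32 : ℕ) = 2 ^ 5 by norm_num, ← pow_add]
    congr 1
    omega
  rw [← h2] at h1
  exact (pow_left_inj₀ (rt_pos (by positivity)).le (by positivity) (by norm_num)).1 h1

theorem rt_mono {m n : ℕ} (h : m ≤ n) : rt m ≤ rt n := by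
  unfold rt
  exact Real.rpow_le_rpow (by positivity) (by exact_mod_cast h) (by norm_num)

theorem exists_split (κ : ℕ) (hκ : 64 ≤ κ) (p : Fin (8 * 2 ^ κ) → ℕ) (hp : ∀ i, p i ∈ pl κ)
    (hsum : ∑ m ∈ (Finset.Icc (2 ^ (κ - 7)) (2 ^ (2 ^ κ))).filter (fun m => BadMod p m),
        1 / rt m ^ 31 ≤ 1 / 16) (n : ℕ) (hn1 : 2 ^ (2 ^ κ - 1) ≤ n) (hn2 : n < 2 ^ (2 ^ κ))
    (hn : Even n) : ∃ s₁ s₂ : ℕ, s₁ + s₂ = n ∧ GoodNum p s₁ ∧ GoodNum p s₂ := by
  classical
  set X := 2 ^ (κ - 7) with hX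
  set S := 2 ^ (2 ^ κ) with hS
  set Bad := (Finset.Icc X S).filter (fun m => BadMod p m) with hBad
  obtain ⟨W, ρ, hWpos, hW4, hρW, hWq, hres⟩ := exists_residue X n hn
  -- sizes
  set u := 2 ^ (κ - 6) with hu
  have hu2 : 2 ≤ u := by
    rw [hu]
    calc 2 = 2 ^ 1 := rfl
      _ ≤ 2 ^ (κ - 6) := Nat.pow_le_pow_right (by norm_num) (by omega)
  have h64 : 2 ^ κ = 64 * u := by
    rw [hu, show (64 : ℕ) = 2 ^ 6 by norm_num, ← pow_add]; congr 1; omega
  have hXu : 2 * X = u := by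
    rw [hX, hu, ← pow_succ']; congr 1; omega
  have hWu : W ≤ 2 ^ u := by
    calc W ≤ 4 ^ X := hW4
      _ = 2 ^ u := by rw [show (4 : ℕ) = 2 ^ 2 by norm_num, ← pow_mul, hXu]
  have hdiv : 2 ^ (63 * u - 1) ≤ n / W := by
    rw [Nat.le_div_iff_mul_le hWpos]
    calc 2 ^ (63 * u - 1) * W ≤ 2 ^ (63 * u - 1) * 2 ^ u := Nat.mul_le_mul_left _ hWu
      _ = 2 ^ (2 ^ κ - 1) := by rw [← pow_add, h64]; congr 1; omega
      _ ≤ n := hn1
  set L := n / W - 1 with hL
  have hL1 : 2 ^ (62 * u) ≤ L := by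
    have h1 : 2 ^ (62 * u + 1) ≤ 2 ^ (63 * u - 1) := Nat.pow_le_pow_right (by norm_num) (by omega)
    have h2 : 1 ≤ 2 ^ (62 * u) := Nat.one_le_two_pow
    rw [pow_succ] at h1
    omega
  have hlt : ∀ j < L, ρ + j * W < n := by
    intro j hj
    have h1 : (j + 1) * W ≤ (n / W) * W := Nat.mul_le_mul_right _ (by omega)
    have h2 : (n / W) * W ≤ n := Nat.div_mul_le_self n W
    rw [add_mul, one_mul] at h1
    omega
  -- the excluded set
  set E : ℕ → Finset ℕ := fun m =>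
    (Finset.range L).filter (fun j => m ∣ ρ + j * W ∨ m ∣ n - (ρ + j * W)) with hE
  set Bad' := Bad.filter (fun m => Nat.Coprime W m) with hBad'
  set Z := (univ : Finset (Fin (8 * 2 ^ κ))).biUnion (fun i => E (p i)) ∪ Bad'.biUnion E with hZ
  have hpi : ∀ i, (p i).Prime ∧ 2 ^ (8 * κ) ≤ p i ∧ p i < 2 ^ (16 * κ) := fun i => mem_pl (hp i)
  have hXp : ∀ i, X < p i := by
    intro i
    refine lt_of_lt_of_le ?_ (hpi i).2.1
    exact Nat.pow_lt_pow_right (by norm_num) (by omega)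
  have hpW : ∀ i, Nat.Coprime W (p i) := by
    intro i
    rw [Nat.coprime_comm, (hpi i).1.coprime_iff_not_dvd]
    intro h
    have := hWq _ (hpi i).1 h
    have := hXp i
    omega
  have hLr : (0 : ℝ) < L := by
    have : 0 < 2 ^ (62 * u) := by positivity
    exact_mod_cast lt_of_lt_of_le this hL1
  have hZ1 : (((univ : Finset (Fin (8 * 2 ^ κ))).biUnion (fun i => E (p i))).card : ℝ) ≤
      (L : ℝ) / 4 := by
    have h1 : (((univ : Finset (Fin (8 * 2 ^ κ))).biUnion (fun i => E (p i))).card : ℝ) ≤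
        ∑ i : Fin (8 * 2 ^ κ), ((E (p i)).card : ℝ) := by
      exact_mod_cast Finset.card_biUnion_le
    refine h1.trans ?_
    have h2 : ∀ i : Fin (8 * 2 ^ κ), ((E (p i)).card : ℝ) ≤ 2 * ((L : ℝ) / 2 ^ (8 * κ) + 1) := by
      intro i
      refine (card_E (p i) W ρ n L (hpi i).1.pos (hpW i) hlt).trans ?_
      have h3 : ((2 : ℝ) ^ (8 * κ)) ≤ (p i : ℝ) := by exact_mod_cast (hpi i).2.1
      gcongr
    refine (Finset.sum_le_sum fun i _ => h2 i).trans ?_
    rw [Finset.sum_const, Finset.card_univ, Fintype.card_fin, nsmul_eq_mul]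
    -- 8 * 2^κ * 2 * (L / 2^(8κ) + 1) ≤ L / 4
    have h4 : (128 : ℝ) * 2 ^ κ ≤ 2 ^ (8 * κ) := by
      calc (128 : ℝ) * 2 ^ κ = 2 ^ (7 + κ) := by rw [pow_add]; norm_num
        _ ≤ 2 ^ (8 * κ) := pow_le_pow_right₀ (by norm_num) (by omega)
    have h5 : (128 : ℝ) * 2 ^ κ ≤ L := by
      have h6 : 128 * 2 ^ κ ≤ 2 ^ (62 * u) := by
        rw [h64]
        calc 128 * (64 * u) = 2 ^ 13 * u := by ring
          _ ≤ 2 ^ 13 * 2 ^ u := Nat.mul_le_mul_left _ Nat.lt_two_pow_self.le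
          _ = 2 ^ (13 + u) := by rw [pow_add]
          _ ≤ 2 ^ (62 * u) := Nat.pow_le_pow_right (by norm_num) (by omega)
      exact_mod_cast h6.trans hL1
    have h7 : (2 : ℝ) ^ κ * ((L : ℝ) / 2 ^ (8 * κ)) ≤ L / 128 := by
      rw [← mul_div_assoc, div_le_div_iff₀ (by positivity) (by norm_num)]
      nlinarith
    push_cast
    nlinarith
  have hrtS : rt S = 2 ^ (2 ^ (κ - 5)) := rt_S κ (by omega)
  have hZ2 : ((Bad'.biUnion E).card : ℝ) ≤ (L : ℝ) / 4 := by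
    have h1 : ((Bad'.biUnion E).card : ℝ) ≤ ∑ m ∈ Bad', ((E m).card : ℝ) := by
      exact_mod_cast Finset.card_biUnion_le
    refine h1.trans ?_
    have hmem : ∀ m ∈ Bad, 0 < m ∧ m ≤ S := by
      intro m hm
      rw [hBad, Finset.mem_filter, Finset.mem_Icc] at hm
      exact ⟨lt_of_lt_of_le (by positivity) hm.1.1, hm.1.2⟩
    have h2 : ∀ m ∈ Bad', ((E m).card : ℝ) ≤ 2 * ((L : ℝ) + rt S ^ 31) * (1 / rt m ^ 31) := by
      intro m hm
      rw [hBad', Finset.mem_filter] at hm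
      obtain ⟨hm0, hmS⟩ := hmem m hm.1
      refine (card_E m W ρ n L hm0 hm.2 hlt).trans ?_
      have hρ := rt_pos hm0
      have hρ1 := rt_ge_one hm0
      have hmono := rt_mono hmS
      have h3 : (L : ℝ) / m ≤ L * (1 / rt m ^ 31) := by
        rw [mul_one_div]
        apply div_le_div_of_nonneg_left hLr.le (by positivity)
        rw [← rt_pow m]
        exact pow_le_pow_right₀ hρ1 (by norm_num)
      have h4 : (1 : ℝ) ≤ rt S ^ 31 * (1 / rt m ^ 31) := by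
        rw [mul_one_div, le_div_iff₀ (by positivity), one_mul]
        gcongr
      calc 2 * ((L : ℝ) / m + 1) ≤ 2 * (L * (1 / rt m ^ 31) + rt S ^ 31 * (1 / rt m ^ 31)) := by
            gcongr
        _ = _ := by ring
    refine (Finset.sum_le_sum h2).trans ?_
    rw [← Finset.mul_sum]
    have h5 : ∑ m ∈ Bad', 1 / rt m ^ 31 ≤ 1 / 16 := by
      refine le_trans ?_ hsum
      apply Finset.sum_le_sum_of_subset_of_nonneg (Finset.filter_subset _ _)
      intro m hm _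
      have := rt_pos (hmem m hm).1
      positivity
    have h6 : rt S ^ 31 ≤ L := by
      rw [hrtS, ← pow_mul]
      have h7 : 2 ^ (κ - 5) * 31 = 62 * u := by
        have : 2 ^ (κ - 5) = 2 * u := by rw [hu, ← pow_succ']; congr 1; omega
        rw [this]; ring
      rw [h7]
      exact_mod_cast hL1
    have h8 : 0 ≤ 2 * ((L : ℝ) + rt S ^ 31) := by
      have := rt_pos (show 0 < S by positivity)
      positivity
    calc 2 * ((L : ℝ) + rt S ^ 31) * ∑ m ∈ Bad', 1 / rt m ^ 31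
        ≤ 2 * ((L : ℝ) + rt S ^ 31) * (1 / 16) := by gcongr
      _ ≤ (L : ℝ) / 4 := by linarith
  have hZc : Z.card < L := by
    have h1 : (Z.card : ℝ) ≤ (L : ℝ) / 4 + (L : ℝ) / 4 := by
      have h2 : (Z.card : ℝ) ≤ (((univ : Finset (Fin (8 * 2 ^ κ))).biUnion (fun i => E (p i))).card : ℝ) +
          ((Bad'.biUnion E).card : ℝ) := by exact_mod_cast Finset.card_union_le _ _
      linarith
    have h3 : (Z.card : ℝ) < L := by linarith
    exact_mod_cast h3
  obtain ⟨j, hjL, hjZ⟩ : ∃ j ∈ Finset.range L, j ∉ Z := by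
    by_contra h
    push Not at h
    have := Finset.card_le_card (show Finset.range L ⊆ Z from h)
    rw [Finset.card_range] at this
    omega
  have hjL' : j < L := Finset.mem_range.1 hjL
  have hjn := hlt j hjL'
  have havoid1 : ∀ i, ¬ (p i ∣ ρ + j * W ∨ p i ∣ n - (ρ + j * W)) := by
    intro i h
    apply hjZ
    rw [hZ, Finset.mem_union]
    left
    rw [Finset.mem_biUnion]
    exact ⟨i, Finset.mem_univ _, Finset.mem_filter.2 ⟨hjL, h⟩⟩
  have havoid2 : ∀ m ∈ Bad, Nat.Coprime W m → ¬ (m ∣ ρ + j * W ∨ m ∣ n - (ρ + j * W)) := by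
    intro m hm hcop h
    apply hjZ
    rw [hZ, Finset.mem_union]
    right
    rw [Finset.mem_biUnion]
    exact ⟨m, Finset.mem_filter.2 ⟨hm, hcop⟩, Finset.mem_filter.2 ⟨hjL, h⟩⟩
  have hqW : ∀ q, q.Prime → q ≤ X → ((W : ℕ) : ZMod q) = 0 := fun q hq hqX =>
    (ZMod.natCast_eq_zero_iff _ _).2 (hres q hq hqX).1
  have hs1q : ∀ q, q.Prime → q ≤ X → ¬ q ∣ ρ + j * W := by
    intro q hq hqX hd
    have h1 := (ZMod.natCast_eq_zero_iff _ q).2 hd
    push_cast at h1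
    rw [hqW q hq hqX, mul_zero, add_zero] at h1
    exact (hres q hq hqX).2.1 h1
  have hs2q : ∀ q, q.Prime → q ≤ X → ¬ q ∣ n - (ρ + j * W) := by
    intro q hq hqX hd
    have h1 := (ZMod.natCast_eq_zero_iff _ q).2 hd
    rw [Nat.cast_sub hjn.le] at h1
    push_cast at h1
    rw [hqW q hq hqX, mul_zero, add_zero] at h1
    exact (hres q hq hqX).2.2 (sub_eq_zero.1 h1).symm
  have hX2 : 2 ≤ X := by
    rw [hX]
    calc 2 = 2 ^ 1 := rfl
      _ ≤ 2 ^ (κ - 7) := Nat.pow_le_pow_right (by norm_num) (by omega)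
  have hs1pos : 0 < ρ + j * W := by
    rcases Nat.eq_zero_or_pos (ρ + j * W) with h | h
    · exact absurd (h ▸ dvd_zero 2) (hs1q 2 Nat.prime_two hX2)
    · exact h
  refine ⟨ρ + j * W, n - (ρ + j * W), by omega, ?_, ?_⟩
  · exact good_of_avoid p (fun i => (hpi i).1) X S W _ hs1pos (by omega) hWq hs1q
      (fun i h => havoid1 i (Or.inl h)) (fun m hm hcop h => havoid2 m hm hcop (Or.inl h))
  · exact good_of_avoid p (fun i => (hpi i).1) X S W _ (by omega) (by omega) hWq hs2q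
      (fun i h => havoid1 i (Or.inr h)) (fun m hm hcop h => havoid2 m hm hcop (Or.inr h))

end Vale.Agent.Lib.P012F
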