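import Mathlib

namespace Vale.Agent.Lib.P012F

open Finset

/-- `UF k x`: `x` is a sum of at most `k` unit fractions, repetitions allowed. -/
def UF (k : ℕ) (x : ℚ) : Prop :=
  ∃ l : List ℕ, l.length ≤ k ∧ (∀ n ∈ l, 0 < n) ∧ (l.map (fun n : ℕ => (1 : ℚ) / n)).sum = x

theorem UF.zero (k : ℕ) : UF k 0 := ⟨[], by simp, by simp, by simp⟩

theorem UF.mono {k l : ℕ} {x : ℚ} (h : UF k x) (hkl : k ≤ l) : UF l x := by
  obtain ⟨L, h1, h2, h3⟩ := h
  exact ⟨L, h1.trans hkl, h2, h3⟩

theorem UF.add {k l : ℕ} {x y : ℚ} (hx : UF k x) (hy : UF l y) : UF (k + l) (x + y) := by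
  obtain ⟨L, h1, h2, h3⟩ := hx
  obtain ⟨L', h1', h2', h3'⟩ := hy
  refine ⟨L ++ L', by simp; omega, ?_, by rw [List.map_append, List.sum_append, h3, h3']⟩
  intro n hn
  rcases List.mem_append.1 hn with h | h
  · exact h2 n h
  · exact h2' n h

theorem UF.div {k : ℕ} {x : ℚ} (hx : UF k x) (c : ℕ) (hc : 0 < c) : UF k (x / c) := by
  obtain ⟨L, h1, h2, h3⟩ := hx
  refine ⟨L.map (fun n => n * c), by simpa using h1, ?_, ?_⟩
  · intro n hn
    obtain ⟨m, hm, rfl⟩ := List.mem_map.1 hn
    exact Nat.mul_pos (h2 m hm) hc
  · rw [← h3, List.map_map, div_eq_mul_inv, ← List.sum_map_mul_right]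
    congr 1
    refine List.map_congr_left fun n _ => ?_
    simp only [Function.comp]
    push_cast
    rw [one_div, one_div, mul_inv]

theorem UF.one_div (n : ℕ) (hn : 0 < n) : UF 1 (1 / n) :=
  ⟨[n], by simp, by simpa using hn, by simp⟩

theorem UF.sum {ι : Type*} (s : Finset ι) (k : ℕ) (f : ι → ℚ) (h : ∀ i ∈ s, UF k (f i)) :
    UF (k * s.card) (∑ i ∈ s, f i) := by
  classical
  induction s using Finset.induction_on with
  | empty => simpa using UF.zero 0
  | insert a s ha ih =>
    rw [Finset.sum_insert ha, Finset.card_insert_of_notMem ha]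
    have h1 := h a (Finset.mem_insert_self _ _)
    have h2 := ih fun i hi => h i (Finset.mem_insert_of_mem hi)
    exact (h1.add h2).mono (by ring_nf; rfl)

/-- If `s` divides a sum of `t` divisors of `M`, then `s / M` is a sum of `t` unit fractions. -/
theorem UF.of_dvd_sum {ι : Type*} (T : Finset ι) (hT : T.Nonempty) (d : ι → ℕ) (M s : ℕ) (hM : 0 < M)
    (hs : 0 < s) (hd : ∀ i ∈ T, d i ∣ M) (hsum : s ∣ ∑ i ∈ T, d i) : UF T.card ((s : ℚ) / M) := by
  obtain ⟨R, hR⟩ := hsum
  have hdpos : ∀ i ∈ T, 0 < d i := fun i hi => Nat.pos_of_dvd_of_pos (hd i hi) hM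
  have hRpos : 0 < R := by
    rcases Nat.eq_zero_or_pos R with h | h
    · rw [h, mul_zero] at hR
      obtain ⟨i, hi⟩ := hT
      have := Finset.sum_eq_zero_iff.1 hR i hi
      have := hdpos i hi
      omega
    · exact h
  have key : (s : ℚ) / M = ∑ i ∈ T, (1 : ℚ) / ((M / d i * R : ℕ) : ℚ) := by
    have h1 : ∀ i ∈ T, (1 : ℚ) / ((M / d i * R : ℕ) : ℚ) = (d i : ℚ) / (M * R) := by
      intro i hi
      have hdi : (d i : ℚ) ≠ 0 := by exact_mod_cast (hdpos i hi).ne'
      have hM' : (M : ℚ) ≠ 0 := by exact_mod_cast hM.ne'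
      have hR' : (R : ℚ) ≠ 0 := by exact_mod_cast hRpos.ne'
      push_cast [Nat.cast_div (hd i hi) hdi]
      field_simp
    rw [Finset.sum_congr rfl h1, ← Finset.sum_div]
    have h2 : (∑ i ∈ T, (d i : ℚ)) = s * R := by exact_mod_cast hR
    rw [h2]
    have hM' : (M : ℚ) ≠ 0 := by exact_mod_cast hM.ne'
    have hR' : (R : ℚ) ≠ 0 := by exact_mod_cast hRpos.ne'
    field_simp
  rw [key]
  have := UF.sum T 1 (fun i => (1 : ℚ) / ((M / d i * R : ℕ) : ℚ)) (fun i hi =>
    UF.one_div _ (Nat.mul_pos (Nat.div_pos (Nat.le_of_dvd hM (hd i hi)) (hdpos i hi)) hRpos))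
  rwa [one_mul] at this

theorem exists_distinct (x : ℚ) (hx : x < 1) : ∀ k : ℕ, ∀ f : Fin k → ℕ, (∀ i, 0 < f i) →
    ∑ i, (1 : ℚ) / f i = x →
    ∃ s : Finset ℕ, (∀ n ∈ s, 2 ≤ n) ∧ s.card ≤ k ∧ ∑ n ∈ s, (1 : ℚ) / n = x := by
  intro k
  induction k with
  | zero =>
    intro f _ hf
    exact ⟨∅, by simp, by simp, by simpa using hf⟩
  | succ k ih =>
    intro f₀ hf₀ hsum₀
    -- lexicographically least representation
    let A : Set (Lex (Fin (k + 1) → ℕ)) := {f | (∀ i, 0 < ofLex f i) ∧
      ∑ i, (1 : ℚ) / (ofLex f i : ℕ) = x}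
    have hA : A.Nonempty := ⟨toLex f₀, hf₀, hsum₀⟩
    obtain ⟨F, hFA, hFmin⟩ := WellFounded.has_min (wellFounded_lt (α := Lex (Fin (k + 1) → ℕ))) A hA
    set f : Fin (k + 1) → ℕ := ofLex F with hf
    obtain ⟨hpos, hsum⟩ := hFA
    change ∀ i, 0 < f i at hpos
    change ∑ i, (1 : ℚ) / f i = x at hsum
    have hge2 : ∀ i, 2 ≤ f i := by
      intro i
      by_contra h
      have h1 : f i = 1 := by have := hpos i; omega
      have h2 : (1 : ℚ) / f i ≤ ∑ i, (1 : ℚ) / f i :=
        Finset.single_le_sum (f := fun i => (1 : ℚ) / f i) (fun j _ => by positivity)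
          (Finset.mem_univ i)
      rw [hsum, h1] at h2
      norm_num at h2
      linarith
    by_cases hinj : Function.Injective f
    · refine ⟨univ.image f, ?_, ?_, ?_⟩
      · intro n hn
        obtain ⟨i, _, rfl⟩ := Finset.mem_image.1 hn
        exact hge2 i
      · refine Finset.card_image_le.trans ?_
        simp
      · rw [Finset.sum_image fun a _ b _ h => hinj h]
        exact hsum
    · -- a collision
      have hcol : ∃ i j : Fin (k + 1), i < j ∧ f i = f j := by
        unfold Function.Injective at hinj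
        push Not at hinj
        obtain ⟨i, j, hij, hne⟩ := hinj
        rcases lt_or_gt_of_ne hne with h | h
        · exact ⟨i, j, h, hij⟩
        · exact ⟨j, i, h, hij.symm⟩
      obtain ⟨i, j, hlt, hij⟩ := hcol
      have hne : i ≠ j := hlt.ne
      rcases Nat.even_or_odd (f i) with he | ho
      · -- even case: fewer terms
        obtain ⟨m, hm⟩ := he
        have hm0 : 0 < m := by have := hpos i; omega
        have hm' : (m : ℚ) ≠ 0 := by exact_mod_cast hm0.ne'
        let g : Fin (k + 1) → ℕ := Function.update f j m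
        have hgi : g i = f i := Function.update_of_ne hne _ _
        have hgj : g j = m := Function.update_self _ _ _
        have hgsum : ∑ l, (1 : ℚ) / g l = x - 1 / f j + 1 / m := by
          rw [← hsum, ← Finset.add_sum_erase _ _ (Finset.mem_univ j),
            ← Finset.add_sum_erase univ (fun l => (1 : ℚ) / f l) (Finset.mem_univ j), hgj]
          have : ∑ l ∈ univ.erase j, (1 : ℚ) / g l = ∑ l ∈ univ.erase j, (1 : ℚ) / f l := by
            refine Finset.sum_congr rfl fun l hl => ?_
            have : g l = f l := Function.update_of_ne (Finset.ne_of_mem_erase hl) _ _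
            rw [this]
          rw [this]
          ring
        have h3 := ih (fun l => g (i.succAbove l)) (fun l => by
            by_cases h : i.succAbove l = j
            · rw [h, hgj]; exact hm0
            · have : g (i.succAbove l) = f (i.succAbove l) := Function.update_of_ne h _ _
              rw [this]; exact hpos _) (by
            rw [Fin.sum_univ_succAbove _ i, hgi] at hgsum
            have h4 : (f j : ℚ) = 2 * m := by
              rw [← hij, hm]; push_cast; ring
            have h5 : (f i : ℚ) = 2 * m := by rw [hm]; push_cast; ring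
            rw [h4, h5] at hgsum
            have h6 : (1 : ℚ) / m = 1 / (2 * m) + 1 / (2 * m) := by field_simp; norm_num
            rw [h6] at hgsum
            linarith)
        obtain ⟨s, hs1, hs2, hs3⟩ := h3
        exact ⟨s, hs1, by omega, hs3⟩
      · -- odd case: a smaller representation
        exfalso
        obtain ⟨m, hm⟩ := ho
        have hm1 : 1 ≤ m := by have := hge2 i; omega
        have hm' : (m : ℚ) + 1 ≠ 0 := by positivity
        have hm2 : (2 * m + 1 : ℚ) ≠ 0 := by positivity
        let g : Fin (k + 1) → ℕ := Function.update (Function.update f j ((m + 1) * (2 * m + 1))) i (m + 1)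
        have hgi : g i = m + 1 := Function.update_self _ _ _
        have hgj : g j = (m + 1) * (2 * m + 1) := by
          change Function.update (Function.update f j ((m + 1) * (2 * m + 1))) i (m + 1) j = _
          rw [Function.update_of_ne hne.symm, Function.update_self]
        have hgo : ∀ l, l ≠ i → l ≠ j → g l = f l := by
          intro l h1 h2
          change Function.update (Function.update f j ((m + 1) * (2 * m + 1))) i (m + 1) l = _
          rw [Function.update_of_ne h1, Function.update_of_ne h2]
        have hgA : toLex g ∈ A := by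
          constructor
          · intro l
            change 0 < g l
            by_cases h1 : l = i
            · rw [h1, hgi]; omega
            · by_cases h2 : l = j
              · rw [h2, hgj]; positivity
              · rw [hgo l h1 h2]; exact hpos l
          · change ∑ l, (1 : ℚ) / g l = x
            have hj' : j ∈ univ.erase i := Finset.mem_erase.2 ⟨hne.symm, Finset.mem_univ _⟩
            rw [← hsum, ← Finset.add_sum_erase _ _ (Finset.mem_univ i),
              ← Finset.add_sum_erase univ (fun l => (1 : ℚ) / f l) (Finset.mem_univ i),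
              ← Finset.add_sum_erase _ _ hj',
              ← Finset.add_sum_erase _ (fun l => (1 : ℚ) / f l) hj', hgi, hgj]
            have : ∑ l ∈ (univ.erase i).erase j, (1 : ℚ) / g l =
                ∑ l ∈ (univ.erase i).erase j, (1 : ℚ) / f l := by
              refine Finset.sum_congr rfl fun l hl => ?_
              rw [hgo l (Finset.ne_of_mem_erase (Finset.mem_of_mem_erase hl))
                (Finset.ne_of_mem_erase hl)]
            rw [this]
            have h4 : (f j : ℚ) = 2 * m + 1 := by rw [← hij, hm]; push_cast; ring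
            have h5 : (f i : ℚ) = 2 * m + 1 := by rw [hm]; push_cast; ring
            rw [h4, h5]
            push_cast
            field_simp
            ring
        have hglt : toLex g < F := by
          refine ⟨i, ?_, ?_⟩
          · intro l hl
            have h1 : l ≠ i := hl.ne
            have h2 : l ≠ j := (hl.trans hlt).ne
            exact hgo l h1 h2
          · change g i < f i
            rw [hgi, hm]; omega
        exact hFmin _ hgA hglt

theorem UF.distinct {k : ℕ} {x : ℚ} (h : UF k x) (hx : x < 1) :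
    ∃ s : Finset ℕ, (∀ n ∈ s, 2 ≤ n) ∧ s.card ≤ k ∧ ∑ n ∈ s, (1 : ℚ) / n = x := by
  obtain ⟨L, h1, h2, h3⟩ := h
  obtain ⟨s, hs1, hs2, hs3⟩ := exists_distinct x hx L.length (fun i => L.get i)
    (fun i => h2 _ (List.get_mem _ _)) (by
      rw [← h3, ← List.sum_ofFn]
      congr 1
      conv_rhs => rw [← List.ofFn_get L, List.map_ofFn]
      rfl)
  exact ⟨s, hs1, hs2.trans h1, hs3⟩

end Vale.Agent.Lib.P012F
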